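import Crest.Agent.X262.Syz.Syz
import Crest.Agent.X262.Brg.Jac

-- ▼ part X262/Syz/Eqn
section

/-!
# Row 262 (helper26): from formal smoothness to `SmAt`

* `li_iff_minor`, `SmAt.generize`, `SmAt.ext` : `SmAt` passes to generisations;
* `KeyAt F η` : `h F j ≡ ∑ ∂ᵢ F j δᵢ` modulo `(F)²`, `h(η) ≠ 0`, `δᵢ ∈ (F)`;
* `KeyAt.smAt` (Nakayama), `key_of_smooth`, `smAt_of_smooth` (affine Jacobian criterion).
-/

set_option autoImplicit false
set_option linter.unusedSectionVars false

open MvPolynomial

noncomputable section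

namespace Crest.Agent.X262.Syz

/-- rows are independent iff a maximal minor is nonzero -/
theorem li_iff_minor {K m n : Type*} [Field K] [Fintype m] [DecidableEq m] [Fintype n]
    (A : m → n → K) :
    LinearIndependent K A ↔ ∃ p : m → n, (Matrix.of fun a b => A a (p b)).det ≠ 0 := by
  classical
  constructor
  · intro h
    have h1 : (Matrix.of A).rank = Fintype.card m := LinearIndependent.rank_matrix h
    have h2 : LinearMap.range (Matrix.of A).mulVecLin = ⊤ :=
      Submodule.eq_top_of_finrank_eq (by rw [Module.finrank_fintype_fun_eq_card]; exact h1)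
    obtain ⟨B, hB⟩ := Matrix.mulVec_surjective_iff_exists_right_inverse.1
      (LinearMap.range_eq_top.1 h2)
    by_contra hn
    push Not at hn
    have h3 : (Matrix.of A * B).det = ∑ p : m → n,
        (Matrix.of fun a b => A a (p b)).det * ∏ i, B (p i) i := by
      simp only [Matrix.det_apply', Matrix.mul_apply, Finset.prod_univ_sum, Finset.mul_sum,
        Fintype.piFinset_univ, Finset.sum_mul, Matrix.of_apply, Finset.prod_mul_distrib, mul_assoc]
      rw [Finset.sum_comm]
    rw [hB, Matrix.det_one] at h3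
    simp [hn] at h3
  · rintro ⟨p, hp⟩
    have := Matrix.linearIndependent_rows_of_det_ne_zero hp
    exact LinearIndependent.of_comp (LinearMap.funLeft K K p) this

variable {k : Type} [Field k] {ι κ : Type} [Fintype ι] [Fintype κ] [DecidableEq κ]
  {F : κ → MvPolynomial ι k}

/-- `SmAt` passes to a generisation -/
theorem SmAt.generize {K L : Type*} [Field K] [Algebra k K] [Field L] [Algebra k L] {η : ι → K}
    {y : ι → L} (h : ∀ g : MvPolynomial ι k, aeval y g = 0 → aeval η g = 0) {S : Finset κ}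
    (hS : SmAt F η S) : SmAt F y S := by
  obtain ⟨hli, g, hg0, hg⟩ := hS
  refine ⟨?_, g, fun e => hg0 (h g e), hg⟩
  obtain ⟨p, hp⟩ := (li_iff_minor _).1 hli
  refine (li_iff_minor _).2 ⟨p, fun e => hp ?_⟩
  have h1 := h (Matrix.of fun a b : S => pderiv (p b) (F a)).det (by rw [AlgHom.map_det]; exact e)
  rwa [AlgHom.map_det] at h1

/-- `SmAt` is stable under extension of the field -/
theorem SmAt.ext {K L : Type*} [Field K] [Algebra k K] [Field L] [Algebra k L] (φ : K →ₐ[k] L)
    {η : ι → K} {S : Finset κ} (hS : SmAt F η S) : SmAt F (fun i => φ (η i)) S :=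
  hS.generize fun g hg => by
    rw [← comp_aeval_apply] at hg
    exact (map_eq_zero φ).1 hg

/-- determinant trick -/
theorem nak {R M : Type*} [CommRing R] [AddCommGroup M] [Module R M] {I N : Submodule R M}
    (hI : I.FG) (p : Ideal R) (H : R) (h : ∀ x ∈ I, H • x ∈ N ⊔ p • I) :
    ∃ n : ℕ, ∃ a ∈ p, ∀ x ∈ I, (H ^ n + a) • x ∈ N := by
  let Q := I.map N.mkQ
  have : Module.Finite R Q := Module.Finite.iff_fg.2 (hI.map _)
  obtain ⟨q, hq, -, hc, h0⟩ :=
    LinearMap.exists_monic_and_natDegree_eq_and_coeff_mem_pow_and_aeval_eq_zero R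
      (algebraMap R (Module.End R Q) H) p (by
        rintro _ ⟨⟨_, x, hx, rfl⟩, rfl⟩
        rw [Submodule.mem_smul_top_iff, ← Submodule.map_smul'']
        obtain ⟨a, ha, b, hb, e⟩ := Submodule.mem_sup.1 (h x hx)
        refine ⟨b, hb, ?_⟩
        have : N.mkQ a = 0 := (Submodule.Quotient.mk_eq_zero N).2 ha
        simp only [Module.algebraMap_end_apply, SetLike.val_smul, ← map_smul, ← e, map_add, this,
          zero_add])
  refine ⟨q.natDegree, ∑ i ∈ Finset.range q.natDegree, q.coeff i * H ^ i,
    Ideal.sum_mem _ fun i hi => Ideal.mul_mem_right _ _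
      (Ideal.pow_le_self (Nat.sub_ne_zero_of_lt (Finset.mem_range.1 hi)) (hc i)), fun x hx => ?_⟩
  have e : H ^ q.natDegree + ∑ i ∈ Finset.range q.natDegree, q.coeff i * H ^ i = q.eval H := by
    rw [Polynomial.eval_eq_sum_range, Finset.sum_range_succ, hq.coeff_natDegree, one_mul, add_comm]
  rw [Polynomial.aeval_algebraMap_apply, Polynomial.coe_aeval_eq_eval] at h0
  have h1 := congrArg (fun f : Module.End R Q => (f ⟨N.mkQ x, x, hx, rfl⟩ : M ⧸ N)) h0
  simp only [Module.algebraMap_end_apply, SetLike.val_smul, LinearMap.zero_apply,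
    ZeroMemClass.coe_zero, ← map_smul] at h1
  rw [e]
  exact (Submodule.Quotient.mk_eq_zero N).1 h1

/-- the conormal sequence splits near `η` -/
def KeyAt (F : κ → MvPolynomial ι k) {K : Type*} [Field K] [Algebra k K] (η : ι → K) : Prop :=
  ∃ h : MvPolynomial ι k, aeval η h ≠ 0 ∧ ∃ δ : ι → MvPolynomial ι k,
    (∀ i, δ i ∈ Ideal.span (Set.range F)) ∧
      ∀ j, h * F j - ∑ i, pderiv i (F j) * δ i ∈ Ideal.span (Set.range F) ^ 2

theorem key_span {h : MvPolynomial ι k} {δ : ι → MvPolynomial ι k}
    (hδ : ∀ i, δ i ∈ Ideal.span (Set.range F))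
    (hF : ∀ j, h * F j - ∑ i, pderiv i (F j) * δ i ∈ Ideal.span (Set.range F) ^ 2)
    {G : MvPolynomial ι k} (hG : G ∈ Ideal.span (Set.range F)) :
    h * G - ∑ i, pderiv i G * δ i ∈ Ideal.span (Set.range F) ^ 2 := by
  induction hG using Submodule.span_induction with
  | mem x hx => obtain ⟨j, rfl⟩ := hx; exact hF j
  | zero => simp
  | add x y _ _ hx hy =>
    have := add_mem hx hy
    simp only [map_add, add_mul, Finset.sum_add_distrib]
    convert this using 1
    ring
  | smul a x hx0 hx =>
    have h2 : x * ∑ i, pderiv i a * δ i ∈ Ideal.span (Set.range F) ^ 2 := by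
      rw [pow_two]
      exact Ideal.mul_mem_mul hx0 (Ideal.sum_mem _ fun i _ => Ideal.mul_mem_left _ _ (hδ i))
    have := sub_mem (Ideal.mul_mem_left _ a hx) h2
    simp only [smul_eq_mul, Derivation.leibniz, add_mul, Finset.sum_add_distrib, mul_assoc,
      ← Finset.mul_sum]
    convert this using 1
    ring

theorem li_coe {K : Type*} [Field K] [Algebra k K] (R : Subalgebra k K) {α : Type*} {v : α → ι → R}
    (h : LinearIndependent R v) : LinearIndependent K fun a i => (v a i : K) :=
  (linearIndependent_algebraMap_comp_iff (S := K)).2 h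

/-- **Nakayama**: a split conormal sequence gives local generators with independent differentials -/
theorem KeyAt.smAt {K : Type*} [Field K] [Algebra k K] {η : ι → K} (hη : ∀ j, aeval η (F j) = 0)
    (h : KeyAt F η) : ∃ S, SmAt F η S := by
  classical
  obtain ⟨h, h0, δ, hδ, hF⟩ := h
  let I := Ideal.span (Set.range F)
  let p : Ideal (MvPolynomial ι k) := RingHom.ker (aeval η : MvPolynomial ι k →ₐ[k] K)
  have hIp : I ≤ p := Ideal.span_le.2 (by rintro _ ⟨j, rfl⟩; exact hη j)
  let R := (aeval η : MvPolynomial ι k →ₐ[k] K).range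
  let v : κ → ι → R := fun j i => ⟨aeval η (pderiv i (F j)), _, rfl⟩
  obtain ⟨s, hs, hmax⟩ := exists_maximal_linearIndepOn R v
  let S := s.toFinset
  have hS : (S : Set κ) = s := Set.coe_toFinset s
  let N := Ideal.span (F '' (S : Set κ))
  have hNI : N ≤ I := Ideal.span_mono (Set.image_subset_range _ _)
  have h1 : ∀ j, ∃ a : MvPolynomial ι k, aeval η a ≠ 0 ∧ (h * a) * F j ∈ N ⊔ p • I := by
    intro j
    by_cases hj : j ∈ s
    · exact ⟨1, by simp, Submodule.mem_sup_left (Ideal.mul_mem_left _ _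
        (Ideal.subset_span ⟨j, by rw [hS]; exact hj, rfl⟩))⟩
    obtain ⟨⟨_, a, rfl⟩, ha, hm⟩ := hmax j hj
    rw [← hS, Set.image_eq_range, Submodule.mem_span_range_iff_exists_fun] at hm
    obtain ⟨c, hc⟩ := hm
    choose c' hc' using fun t => (c t).2
    have hn : ∑ t : (S : Set κ), c' t * F t ∈ N :=
      Ideal.sum_mem _ fun t _ => Ideal.mul_mem_left _ _ (Ideal.subset_span ⟨t, t.2, rfl⟩)
    have hj' : F j ∈ I := Ideal.subset_span ⟨j, rfl⟩
    have hG : a * F j - ∑ t : (S : Set κ), c' t * F t ∈ I :=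
      sub_mem (Ideal.mul_mem_left _ _ hj') (hNI hn)
    have hd : ∀ i, pderiv i (a * F j - ∑ t : (S : Set κ), c' t * F t) ∈ p := fun i => by
      have e := congrArg Subtype.val (congrFun hc i)
      simp only [Finset.sum_apply, Pi.smul_apply, smul_eq_mul, AddSubmonoidClass.coe_finsetSum,
        MulMemClass.coe_mul, v, ← hc'] at e
      change aeval η _ = 0
      simp only [map_sub, map_sum, Derivation.leibniz, smul_eq_mul, map_add, map_mul, hη, zero_mul,
        add_zero]
      exact sub_eq_zero.2 e.symm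
    have h2 := key_span hδ hF hG
    have h3 : I ^ 2 ≤ p • I := by
      rw [pow_two, smul_eq_mul]
      exact Ideal.mul_mono_left hIp
    refine ⟨a, fun e => ha (Subtype.ext e), ?_⟩
    have h4 := add_mem (Submodule.mem_sup_left (T := p • I) (Ideal.mul_mem_left N h hn))
      (Submodule.mem_sup_right (add_mem (h3 h2)
        (Submodule.sum_mem _ fun i (_ : i ∈ Finset.univ) => Submodule.smul_mem_smul (hd i) (hδ i))))
    convert h4 using 1
    simp only [smul_eq_mul]
    ring
  choose a ha0 ha using h1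
  obtain ⟨n, b, hb, hn⟩ := nak (I := I) (N := N) (Submodule.fg_span (Set.finite_range F)) p
    (h * ∏ j, a j) (fun x hx => by
      induction hx using Submodule.span_induction with
      | mem x hx =>
        obtain ⟨j, rfl⟩ := hx
        have := Submodule.smul_mem _ (∏ j' ∈ Finset.univ.erase j, a j') (ha j)
        convert this using 1
        rw [← Finset.mul_prod_erase _ _ (Finset.mem_univ j)]
        simp only [smul_eq_mul]
        ring
      | zero => simp
      | add x y _ _ hx hy => rw [smul_add]; exact add_mem hx hy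
      | smul c x _ hx => rw [smul_comm]; exact Submodule.smul_mem _ _ hx)
  refine ⟨S, And.intro ?_ (Exists.intro ((h * ∏ j, a j) ^ n + b) (And.intro ?_ fun j => ?_))⟩
  rotate_right
  · have h6 := hn (F j) (Ideal.subset_span ⟨j, rfl⟩)
    rwa [smul_eq_mul] at h6
  · have h5 : LinearIndependent R fun j : S => v j := by
      have : LinearIndepOn R v (S : Set κ) := by rw [hS]; exact hs
      exact this
    have h7 := li_coe R h5
    have e : (fun (a : S) i => (v a i : K)) = fun a : S => jac F η a :=
      funext fun a => funext fun i => by simp only [v, jac, Matrix.of_apply]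
    rwa [e] at h7
  · have hb' : aeval η b = 0 := hb
    rw [map_add, hb', add_zero, map_pow, map_mul, map_prod]
    exact pow_ne_zero _ (mul_ne_zero h0 (Finset.prod_ne_zero_iff.2 fun j _ => ha0 j))

/-- formal smoothness splits the conormal sequence -/
theorem key_of_smooth {A : Type} [CommRing A] [Algebra k A] [Algebra.FormallySmooth k A]
    (π : MvPolynomial ι k →ₐ[k] A) (hπ : Function.Surjective π) :
    ∃ δ : ι → MvPolynomial ι k, (∀ i, δ i ∈ RingHom.ker π) ∧
      ∀ G ∈ RingHom.ker π, G - ∑ i, pderiv i G * δ i ∈ RingHom.ker π ^ 2 := by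
  obtain ⟨g, hg⟩ := (Algebra.FormallySmooth.iff_split_surjection π hπ).1 inferInstance
  choose u hu using fun i => Ideal.Quotient.mk_surjective (g (π (X i)))
  have hu' : ∀ i, u i - X i ∈ RingHom.ker π := fun i => by
    have := congrArg π.kerSquareLift (hu i)
    have h2 : π.kerSquareLift (g (π (X i))) = π (X i) := DFunLike.congr_fun hg _
    rw [h2] at this
    rw [RingHom.mem_ker, map_sub]
    exact sub_eq_zero.2 this
  refine ⟨fun i => X i - u i, fun i => by simpa using neg_mem (hu' i), fun G hG => ?_⟩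
  have h1 := Brg.Jac.taylor (RingHom.ker π) X (fun i => u i - X i) hu' G
  have e : (X + fun i => u i - X i) = u := by ext1 i; simp
  have h2 : aeval u G ∈ RingHom.ker π ^ 2 := by
    have h3 : (Ideal.Quotient.mkₐ k (RingHom.ker π.toRingHom ^ 2)).comp (aeval u) = g.comp π :=
      algHom_ext fun i => by
        rw [AlgHom.comp_apply, aeval_X, AlgHom.comp_apply]; exact hu i
    have h4 := DFunLike.congr_fun h3 G
    have h5 : π G = 0 := hG
    simp only [AlgHom.comp_apply, h5, map_zero, Ideal.Quotient.mkₐ_eq_mk] at h4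
    exact Ideal.Quotient.eq_zero_iff_mem.1 h4
  rw [e] at h1
  have h6 := sub_mem h2 h1
  simp only [aeval_X_left, AlgHom.coe_id, id_eq] at h6
  convert h6 using 1
  simp only [mul_sub, Finset.sum_sub_distrib]
  ring


end Crest.Agent.X262.Syz
end
end

-- ▼ part X262/Syz/Eqn2

/-!
# Row 262 (helper26): equations of a smooth multi-projective variety

`blk : ι → J` groups the variables; `y : ι → L` is the generic point.

* `aeval_scale`, `pderiv_scale`, `exists_homog` : scaling and homogenisation;
* `hI blk y` : the ideal spanned by the multihomogeneous polynomials vanishing at `y`;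
* `exists_eqns` : finitely many multihomogeneous generators;
* `mchart`, `smAt_cone` : smooth multi-chart ⇒ `SmAt` at every field valued point of the cone;
* `van_of_on`, `rank_jac_eq` : points of the cone are specialisations, the rank is constant;
* `rank_jac_add` : rank + number of blocks + dimension = number of variables.
-/

set_option autoImplicit false
set_option linter.unusedSectionVars false

open MvPolynomial

noncomputable section

namespace Crest.Agent.X262.Syz

variable {k : Type} [Field k] {ι κ J : Type} [Fintype ι] [Fintype κ] [DecidableEq κ] [Fintype J]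
  [DecidableEq J] (blk : ι → J)

/-- the multigrading -/
abbrev mw : ι → J → ℕ := fun i => Pi.single (blk i) 1

theorem prod_pow_single {K : Type*} [CommMonoid K] (t : J → K) (j : J) :
    ∏ l, t l ^ (Pi.single j 1 : J → ℕ) l = t j := by
  rw [Finset.prod_eq_single j] <;> simp +contextual

theorem prod_pow_weight {K : Type*} [CommMonoid K] (t : J → K) (s : ι →₀ ℕ) :
    ∏ l, t l ^ Finsupp.weight (mw blk) s l = s.prod fun i n => t (blk i) ^ n := by
  induction s using Finsupp.induction_linear with
  | zero => simp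
  | add a b ha hb =>
    rw [Finsupp.prod_add_index' (by simp) (by simp [pow_add]), ← ha, ← hb, map_add,
      ← Finset.prod_mul_distrib]
    simp [pow_add]
  | single i n =>
    rw [Finsupp.prod_single_index (by simp), Finsupp.weight_single, ← prod_pow_single t (blk i),
      ← Finset.prod_pow]
    simp [← pow_mul, mul_comm]

variable {blk}

theorem aeval_scale {K : Type*} [CommRing K] [Algebra k K] (t : J → K) (z : ι → K)
    {G : MvPolynomial ι k} {d : J → ℕ} (h : IsWeightedHomogeneous (mw blk) G d) :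
    aeval (fun i => t (blk i) * z i) G = (∏ j, t j ^ d j) * aeval z G := by
  induction h using IsWeightedHomogeneous.induction_on with
  | zero => simp
  | add p q _ _ hp hq => rw [map_add, map_add, hp, hq, mul_add]
  | monomial s r hs =>
    rw [aeval_monomial, aeval_monomial, ← hs, prod_pow_weight]
    simp only [mul_pow, Finsupp.prod_mul]
    ring

theorem pderiv_scale {K : Type*} [CommRing K] [Algebra k K] (t : J → K) (z : ι → K)
    {G : MvPolynomial ι k} {d : J → ℕ} (h : IsWeightedHomogeneous (mw blk) G d) (i : ι) :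
    t (blk i) * aeval (fun i => t (blk i) * z i) (pderiv i G) =
      (∏ j, t j ^ d j) * aeval z (pderiv i G) := by
  induction h using IsWeightedHomogeneous.induction_on with
  | zero => simp
  | add p q _ _ hp hq => simp only [map_add, mul_add, hp, hq]
  | monomial s r hs =>
    rw [pderiv_monomial]
    by_cases h0 : s i = 0
    · simp [h0]
    have e : Finsupp.weight (mw blk) (s - Finsupp.single i 1) + mw blk i = d := by
      rw [← hs]
      conv_rhs => rw [← tsub_add_cancel_of_le (Finsupp.single_le_iff.2 (Nat.one_le_iff_ne_zero.2 h0))]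
      rw [map_add, Finsupp.weight_single, one_smul]
    rw [aeval_scale t z (isWeightedHomogeneous_monomial _ _ _ rfl), ← e, ← mul_assoc]
    congr 1
    simp only [Pi.add_apply, pow_add, Finset.prod_mul_distrib, prod_pow_single]
    ring

theorem hom_prod_pow {c : J → ι} (hc : ∀ j, blk (c j) = j) (E : J → ℕ) :
    IsWeightedHomogeneous (mw blk) (∏ j, X (c j) ^ E j : MvPolynomial ι k) E := by
  have := IsWeightedHomogeneous.prod (w := mw blk) Finset.univ
    (fun j => (X (c j) ^ E j : MvPolynomial ι k)) (fun j => E j • mw blk (c j))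
    fun j _ => (isWeightedHomogeneous_X k _ _).pow _
  convert this
  ext l
  simp [hc, Pi.single_apply]

/-- homogenisation with respect to the coordinates `c j` -/
theorem exists_homog {c : J → ι} (hc : ∀ j, blk (c j) = j) (g : MvPolynomial ι k) :
    ∃ (E : J → ℕ) (G : MvPolynomial ι k), IsWeightedHomogeneous (mw blk) G E ∧
      ∀ (K : Type) [CommRing K] [Algebra k K] (z : ι → K) (t : J → K), (∀ j, t j * z (c j) = 1) →
        aeval (fun i => t (blk i) * z i) g = (∏ j, t j ^ E j) * aeval z G := by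
  induction g using MvPolynomial.induction_on with
  | C a => exact ⟨0, C a, isWeightedHomogeneous_C _ _, fun K _ _ z t _ => by simp⟩
  | add p q hp hq =>
    obtain ⟨E, G, hG, h⟩ := hp
    obtain ⟨E', G', hG', h'⟩ := hq
    refine ⟨E + E', G * ∏ j, X (c j) ^ E' j + (∏ j, X (c j) ^ E j) * G',
      (hG.mul (hom_prod_pow hc E')).add ((hom_prod_pow hc E).mul hG'), fun K _ _ z t ht => ?_⟩
    have e : ∀ D : J → ℕ, (∏ j, t j ^ D j) * ∏ j, z (c j) ^ D j = 1 := fun D => by
      simp [← Finset.prod_mul_distrib, ← mul_pow, ht]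
    simp only [map_add, h K z t ht, h' K z t ht, map_mul, map_prod, map_pow, aeval_X, Pi.add_apply,
      pow_add, Finset.prod_mul_distrib]
    linear_combination (-(∏ j, t j ^ E j) * aeval z G) * e E' - ((∏ j, t j ^ E' j) * aeval z G') * e E
  | mul_X p i hp =>
    obtain ⟨E, G, hG, h⟩ := hp
    refine ⟨E + mw blk i, G * X i, hG.mul (isWeightedHomogeneous_X k _ _), fun K _ _ z t ht => ?_⟩
    simp only [map_mul, h K z t ht, aeval_X, Pi.add_apply, pow_add, Finset.prod_mul_distrib,
      prod_pow_single]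
    ring

variable {L : Type} [Field L] [Algebra k L]

variable (k blk) in
/-- the multihomogeneous ideal of a point -/
def hI (y : ι → L) : Ideal (MvPolynomial ι k) :=
  Ideal.span {G | (∃ d, IsWeightedHomogeneous (mw blk) G d) ∧ aeval y G = 0}

theorem mem_hI {y : ι → L} {G : MvPolynomial ι k} {d : J → ℕ}
    (hG : IsWeightedHomogeneous (mw blk) G d) (h0 : aeval y G = 0) : G ∈ hI k blk y :=
  Ideal.subset_span ⟨⟨d, hG⟩, h0⟩

theorem aeval_of_mem_hI {y : ι → L} {G : MvPolynomial ι k} (hG : G ∈ hI k blk y) :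
    aeval y G = 0 :=
  (Ideal.span_le.2 (fun _ h => h.2) : hI k blk y ≤ RingHom.ker (aeval y : _ →ₐ[k] L)) hG

variable (k blk) in
/-- finitely many multihomogeneous equations -/
theorem exists_eqns (y : ι → L) : ∃ (n : ℕ) (F : Fin n → MvPolynomial ι k) (m : Fin n → J → ℕ),
    (∀ a, IsWeightedHomogeneous (mw blk) (F a) (m a)) ∧ Ideal.span (Set.range F) = hI k blk y := by
  obtain ⟨s, hs, e⟩ := (Submodule.fg_span_iff_fg_span_finset_subset _).1
    (IsNoetherian.noetherian (hI k blk y))
  choose m hm using fun a : s => (hs a.2).1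
  refine ⟨s.card, fun a => (s.equivFin.symm a : _), fun a => m _, fun a => hm _, ?_⟩
  have : Set.range (fun a => (s.equivFin.symm a : MvPolynomial ι k)) = s := by
    ext x
    exact ⟨fun ⟨a, ha⟩ => ha ▸ (s.equivFin.symm a).2, fun hx => ⟨s.equivFin ⟨x, hx⟩, by simp⟩⟩
  rw [this]
  exact e.symm

/-- a point of the cone satisfies all multihomogeneous equations -/
theorem on_hI {F : κ → MvPolynomial ι k} {y : ι → L} (hF : Ideal.span (Set.range F) = hI k blk y)
    {K : Type*} [CommRing K] [Algebra k K] {η : ι → K} (hη : ∀ a, aeval η (F a) = 0)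
    {G : MvPolynomial ι k} (hG : G ∈ hI k blk y) : aeval η G = 0 :=
  (Ideal.span_le.2 (by rintro _ ⟨a, rfl⟩; exact hη a) :
    Ideal.span (Set.range F) ≤ RingHom.ker (aeval η : _ →ₐ[k] K)) (hF ▸ hG)

/-- normalised points of the cone are specialisations of the normalised generic point -/
theorem van_of_on {F : κ → MvPolynomial ι k} {y : ι → L}
    (hF : Ideal.span (Set.range F) = hI k blk y) {c : J → ι} (hc : ∀ j, blk (c j) = j)
    (hy : ∀ j, y (c j) ≠ 0) {K : Type} [CommRing K] [Algebra k K] {η : ι → K}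
    (hη : ∀ a, aeval η (F a) = 0) {t : J → K} (ht : ∀ j, t j * η (c j) = 1) (g : MvPolynomial ι k)
    (hg : aeval (fun i => y i / y (c (blk i))) g = 0) : aeval (fun i => t (blk i) * η i) g = 0 := by
  obtain ⟨E, G, hG, h⟩ := exists_homog hc g
  have h1 := h L y (fun j => (y (c j))⁻¹) fun j => inv_mul_cancel₀ (hy j)
  simp only [← div_eq_inv_mul] at h1
  rw [hg, eq_comm, mul_eq_zero] at h1
  rw [h K η t ht, on_hI hF hη (mem_hI hG (h1.resolve_left
    (Finset.prod_ne_zero_iff.2 fun j _ => pow_ne_zero _ (inv_ne_zero (hy j))))), mul_zero]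

theorem aeval_eqn {F : κ → MvPolynomial ι k} {y : ι → L}
    (hF : Ideal.span (Set.range F) = hI k blk y) (a : κ) : aeval y (F a) = 0 :=
  aeval_of_mem_hI (hF.le (Ideal.subset_span ⟨a, rfl⟩))

/-- a coordinate which is nonzero at a point of the cone is nonzero at the generic point -/
theorem ne_of_on {F : κ → MvPolynomial ι k} {y : ι → L}
    (hF : Ideal.span (Set.range F) = hI k blk y) {K : Type*} [CommRing K] [Algebra k K] {η : ι → K}
    (hη : ∀ a, aeval η (F a) = 0) {i : ι} (hi : η i ≠ 0) : y i ≠ 0 := fun h =>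
  hi (by simpa using on_hI hF hη (mem_hI (isWeightedHomogeneous_X k _ i) (by simpa using h)))

variable (k blk) in
/-- the chart ring of a multi-projective variety -/
def mchart (y : ι → L) (c : J → ι) : Subalgebra k L :=
  Algebra.adjoin k (Set.range fun i => y i / y (c (blk i)))

variable (k blk) in
/-- the presentation of the chart ring -/
def mpi (y : ι → L) (c : J → ι) : MvPolynomial ι k →ₐ[k] mchart k blk y c :=
  aeval fun i => ⟨y i / y (c (blk i)), Algebra.subset_adjoin ⟨i, rfl⟩⟩

theorem coe_mpi (y : ι → L) (c : J → ι) (g : MvPolynomial ι k) :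
    (mpi k blk y c g : L) = aeval (fun i => y i / y (c (blk i))) g :=
  comp_aeval_apply _ (mchart k blk y c).val g

theorem mpi_surj (y : ι → L) (c : J → ι) : Function.Surjective (mpi k blk y c) := by
  rintro ⟨x, hx⟩
  rw [mchart, Algebra.adjoin_range_eq_range_aeval] at hx
  obtain ⟨g, rfl⟩ := hx
  exact ⟨g, Subtype.ext (coe_mpi y c g)⟩

/-- a point of the cone is a point of the chart ring -/
theorem exists_hom_of_on {F : κ → MvPolynomial ι k} {y : ι → L}
    (hF : Ideal.span (Set.range F) = hI k blk y) {c : J → ι} (hc : ∀ j, blk (c j) = j)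
    (hy : ∀ j, y (c j) ≠ 0) {K : Type} [CommRing K] [Algebra k K] {η : ι → K}
    (hη : ∀ a, aeval η (F a) = 0) {t : J → K} (ht : ∀ j, t j * η (c j) = 1) :
    ∃ φ : mchart k blk y c →ₐ[k] K, ∀ g, φ (mpi k blk y c g) = aeval (fun i => t (blk i) * η i) g :=
  ⟨AlgHom.liftOfSurjective _ (mpi_surj y c) (aeval fun i => t (blk i) * η i) fun g hg =>
    van_of_on hF hc hy hη ht g (by
      have h0 : mpi k blk y c g = 0 := hg
      rw [← coe_mpi, h0, ZeroMemClass.coe_zero]),
    fun g => AlgHom.liftOfSurjective_apply _ _ _ _ g⟩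


theorem common_den {P B : Type*} [CommRing P] [CommRing B] [Algebra P B] (M : Submonoid P)
    [IsLocalization M B] (I : Ideal P) {α : Type*} [Fintype α] (b : α → B)
    (hb : ∀ a, b a ∈ I.map (algebraMap P B)) :
    ∃ s ∈ M, ∀ a, ∃ D ∈ I, b a * algebraMap P B s = algebraMap P B D := by
  classical
  choose x hx using fun a => (IsLocalization.mem_map_algebraMap_iff M B).1 (hb a)
  refine ⟨∏ a, ((x a).2 : P), prod_mem fun a _ => (x a).2.2, fun a =>
    ⟨(x a).1 * ∏ a' ∈ Finset.univ.erase a, ((x a').2 : P), I.mul_mem_right _ (x a).1.2, ?_⟩⟩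
  rw [← Finset.mul_prod_erase _ _ (Finset.mem_univ a), map_mul, ← mul_assoc, hx, map_mul]

theorem keyAt_cone {F : κ → MvPolynomial ι k} {m : κ → J → ℕ}
    (hm : ∀ a, IsWeightedHomogeneous (mw blk) (F a) (m a)) {y : ι → L}
    (hF : Ideal.span (Set.range F) = hI k blk y) {c : J → ι} (hc : ∀ j, blk (c j) = j)
    (hy : ∀ j, y (c j) ≠ 0) [Algebra.FormallySmooth k (mchart k blk y c)] {K : Type*} [Field K]
    [Algebra k K] {η : ι → K} (hη : ∀ j, η (c j) ≠ 0) : KeyAt F η := by
  let π := mpi k blk y c
  have hπ : ∀ g, (π g : L) = aeval (fun i => y i / y (c (blk i))) g := coe_mpi y c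
  obtain ⟨δ, hδ, hk⟩ := key_of_smooth π (mpi_surj y c)
  let u : MvPolynomial ι k := ∏ j, X (c j)
  let B := Localization.Away u
  let al := algebraMap (MvPolynomial ι k) B
  have hu : ∀ j, IsUnit (al (X (c j))) := fun j => isUnit_of_dvd_unit
    (map_dvd al (Finset.dvd_prod_of_mem (fun j => X (c j)) (Finset.mem_univ j)))
    (IsLocalization.Away.algebraMap_isUnit u)
  choose t ht using fun j => (hu j).exists_left_inv
  have hal : ∀ g, aeval (fun i => al (X i)) g = al g := fun g => by
    have := comp_aeval_apply X (IsScalarTower.toAlgHom k (MvPolynomial ι k) B) g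
    rw [aeval_X_left_apply] at this
    exact this.symm
  let ψ : MvPolynomial ι k →ₐ[k] B := aeval fun i => t (blk i) * al (X i)
  let I := Ideal.span (Set.range F)
  have hψ : ∀ g ∈ RingHom.ker π, ψ g ∈ I.map al := fun g hg => by
    obtain ⟨E, G, hG, h⟩ := exists_homog hc g
    have h1 := h L y (fun j => (y (c j))⁻¹) fun j => inv_mul_cancel₀ (hy j)
    have h0 : π g = 0 := hg
    simp only [← div_eq_inv_mul] at h1
    rw [← hπ, h0, ZeroMemClass.coe_zero, eq_comm, mul_eq_zero] at h1
    have h2 : G ∈ I := hF.ge (mem_hI hG (h1.resolve_left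
      (Finset.prod_ne_zero_iff.2 fun j _ => pow_ne_zero _ (inv_ne_zero (hy j)))))
    have h3 : ψ g = _ := h B (fun i => al (X i)) t ht
    rw [h3, hal]
    exact Ideal.mul_mem_left _ _ (Ideal.mem_map_of_mem _ h2)
  have hψ2 : ∀ g ∈ RingHom.ker π ^ 2, ψ g ∈ (I ^ 2).map al := fun g hg => by
    have h1 : (RingHom.ker π).map ψ ≤ I.map al := Ideal.map_le_iff_le_comap.2 hψ
    have h2 := Ideal.mem_map_of_mem ψ hg
    rw [Ideal.map_pow] at h2 ⊢
    exact Ideal.pow_right_mono h1 2 h2
  obtain ⟨s, hs, hD⟩ := common_den (Submonoid.powers u) I (fun i => al (X (c (blk i))) * ψ (δ i))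
    fun i => Ideal.mul_mem_left _ _ (hψ _ (hδ i))
  choose D hDI hD using hD
  have h4 : ∀ a, al (s * F a - ∑ i, pderiv i (F a) * D i) ∈ (I ^ 2).map al := fun a => by
    have hFa : F a ∈ RingHom.ker π := by
      refine Subtype.ext ?_
      rw [hπ]
      simp only [div_eq_inv_mul]
      rw [aeval_scale (fun j => (y (c j))⁻¹) y (hm a),
        aeval_eqn hF, mul_zero]
      rfl
    have h5 := Ideal.mul_mem_left _ (al s * ∏ j, al (X (c j)) ^ m a j) (hψ2 _ (hk _ hFa))
    have e : (∏ j, t j ^ m a j) * ∏ j, al (X (c j)) ^ m a j = 1 := by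
      simp [← Finset.prod_mul_distrib, ← mul_pow, ht]
    have e1 : ψ (F a) = (∏ j, t j ^ m a j) * al (F a) := by
      rw [← hal]; exact aeval_scale t _ (hm a)
    have e2 : ∀ i, (al s * ∏ j, al (X (c j)) ^ m a j) * (ψ (pderiv i (F a)) * ψ (δ i)) =
        al (pderiv i (F a)) * al (D i) := fun i => by
      have e3 : t (blk i) * ψ (pderiv i (F a)) = (∏ j, t j ^ m a j) * al (pderiv i (F a)) := by
        rw [← hal]; exact pderiv_scale t _ (hm a) i
      have e4 : al (X (c (blk i))) * ψ (δ i) * al s = al (D i) := hD i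
      linear_combination
        (-(al s * ∏ j, al (X (c j)) ^ m a j) * (ψ (pderiv i (F a)) * ψ (δ i))) * ht (blk i) +
        (al s * (∏ j, al (X (c j)) ^ m a j) * ψ (δ i) * al (X (c (blk i)))) * e3 +
        (al (pderiv i (F a)) * al s * ψ (δ i) * al (X (c (blk i)))) * e + al (pderiv i (F a)) * e4
    convert h5 using 1
    simp only [map_sub, map_mul, map_sum, mul_sub, Finset.mul_sum, e2, e1]
    linear_combination (-al s * al (F a)) * e
  choose r hr hr' using fun a =>
    (IsLocalization.algebraMap_mem_map_algebraMap_iff (Submonoid.powers u) B _ _).1 (h4 a)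
  have hu0 : ∀ x ∈ Submonoid.powers u, aeval η x ≠ 0 := by
    rintro _ ⟨n, rfl⟩
    simp only [u, map_pow, map_prod, aeval_X]
    exact pow_ne_zero _ (Finset.prod_ne_zero_iff.2 fun j _ => hη j)
  refine ⟨(∏ a, r a) * s, hu0 _ (mul_mem (prod_mem fun a _ => hr a) hs), fun i => (∏ a, r a) * D i,
    fun i => Ideal.mul_mem_left _ _ (hDI i), fun a => ?_⟩
  have := Ideal.mul_mem_left _ (∏ a' ∈ Finset.univ.erase a, r a') (hr' a)
  rw [← mul_assoc, Finset.prod_erase_mul _ _ (Finset.mem_univ a)] at this
  convert this using 1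
  simp only [mul_sub, Finset.mul_sum, mul_assoc, mul_left_comm]

/-- **smooth multi-chart ⇒ local equations** at every field valued point of the cone -/
theorem smAt_cone {F : κ → MvPolynomial ι k} {m : κ → J → ℕ}
    (hm : ∀ a, IsWeightedHomogeneous (mw blk) (F a) (m a)) {y : ι → L}
    (hF : Ideal.span (Set.range F) = hI k blk y)
    (hsm : ∀ c : J → ι, (∀ j, blk (c j) = j) → (∀ j, y (c j) ≠ 0) →
      Algebra.FormallySmooth k (mchart k blk y c)) {K : Type*} [Field K] [Algebra k K] {η : ι → K}
    (hnz : ∀ j, ∃ i, blk i = j ∧ η i ≠ 0) (hη : ∀ a, aeval η (F a) = 0) : ∃ S, SmAt F η S := by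
  choose c hc hc0 using hnz
  have hy : ∀ j, y (c j) ≠ 0 := fun j => ne_of_on hF hη (hc0 j)
  have := hsm c hc hy
  exact (keyAt_cone hm hF hc hy hc0).smAt hη

/-- the Jacobian under scaling -/
theorem jac_scale [DecidableEq ι] {F : κ → MvPolynomial ι k} {m : κ → J → ℕ}
    (hm : ∀ a, IsWeightedHomogeneous (mw blk) (F a) (m a)) {K : Type*} [CommRing K] [Algebra k K]
    (t : J → K) (η : ι → K) :
    jac F (fun i => t (blk i) * η i) * Matrix.diagonal (fun i => t (blk i)) =
      Matrix.diagonal (fun a => ∏ j, t j ^ m a j) * jac F η := by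
  ext a i
  rw [Matrix.mul_diagonal, Matrix.diagonal_mul, mul_comm]
  exact pderiv_scale t η (hm a) i

theorem rank_jac_scale {F : κ → MvPolynomial ι k} {m : κ → J → ℕ}
    (hm : ∀ a, IsWeightedHomogeneous (mw blk) (F a) (m a)) {K : Type*} [Field K] [Algebra k K]
    {t : J → K} (ht : ∀ j, t j ≠ 0) (η : ι → K) :
    (jac F fun i => t (blk i) * η i).rank = (jac F η).rank := by
  classical
  have h := congrArg Matrix.rank (jac_scale hm t η)
  rwa [Matrix.rank_mul_eq_left_of_isUnit_det, Matrix.rank_mul_eq_right_of_isUnit_det] at h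
  · rw [Matrix.det_diagonal]
    exact (Finset.prod_ne_zero_iff.2 fun a _ =>
      Finset.prod_ne_zero_iff.2 fun j _ => pow_ne_zero _ (ht j)).isUnit
  · rw [Matrix.det_diagonal]
    exact (Finset.prod_ne_zero_iff.2 fun i _ => ht _).isUnit

/-- **the rank of the Jacobian is constant** on the cone -/
theorem rank_jac_eq {F : κ → MvPolynomial ι k} {m : κ → J → ℕ}
    (hm : ∀ a, IsWeightedHomogeneous (mw blk) (F a) (m a)) {y : ι → L}
    (hF : Ideal.span (Set.range F) = hI k blk y)
    (hsm : ∀ c : J → ι, (∀ j, blk (c j) = j) → (∀ j, y (c j) ≠ 0) →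
      Algebra.FormallySmooth k (mchart k blk y c)) {K : Type} [Field K] [Algebra k K] {η : ι → K}
    (hnz : ∀ j, ∃ i, blk i = j ∧ η i ≠ 0) (hη : ∀ a, aeval η (F a) = 0) :
    (jac F η).rank = (jac F y).rank := by
  choose c hc hc0 using hnz
  have hy : ∀ j, y (c j) ≠ 0 := fun j => ne_of_on hF hη (hc0 j)
  have hη' : ∀ a, aeval (fun i => (η (c (blk i)))⁻¹ * η i) (F a) = 0 := fun a => by
    rw [aeval_scale (fun j => (η (c j))⁻¹) η (hm a), hη, mul_zero]
  have hy' : ∀ a, aeval (fun i => (y (c (blk i)))⁻¹ * y i) (F a) = 0 := fun a => by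
    rw [aeval_scale (fun j => (y (c j))⁻¹) y (hm a),
      aeval_eqn hF, mul_zero]
  obtain ⟨S, hS⟩ := smAt_cone hm hF hsm (η := fun i => (η (c (blk i)))⁻¹ * η i)
    (fun j => ⟨c j, hc j, mul_ne_zero (inv_ne_zero (hc0 _)) (hc0 j)⟩) hη'
  have hS' : SmAt F (fun i => (y (c (blk i)))⁻¹ * y i) S := hS.generize fun g hg =>
    van_of_on hF hc hy hη (t := fun j => (η (c j))⁻¹) (fun j => inv_mul_cancel₀ (hc0 j)) g
      (by simpa only [div_eq_inv_mul] using hg)
  rw [← rank_jac_scale hm (t := fun j => (η (c j))⁻¹) (fun j => inv_ne_zero (hc0 j)) η,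
    ← rank_jac_scale hm (t := fun j => (y (c j))⁻¹) (fun j => inv_ne_zero (hy j)) y,
    hS.rank_jac hη', hS'.rank_jac hy']

/-- syzygies with multidegrees in `ℕ` -/
theorem exists_isSyz_nat (F : κ → MvPolynomial ι k) (m : κ → J → ℕ)
    (hm : ∀ a, IsWeightedHomogeneous (mw blk) (F a) (m a)) :
    ∃ (r : ℕ) (ρ : Fin r → κ → MvPolynomial ι k) (e : Fin r → J → ℕ), IsSyz F ρ ∧
      ∀ l a, ρ l a = 0 ∨ ∃ d, d + m a = e l ∧ IsWeightedHomogeneous (mw blk) (ρ l a) d := by
  let φ : (J → ℕ) →+ (J → ℤ) := (Nat.castAddMonoidHom ℤ).compLeft J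
  have hφ : ∀ d j, φ d j = d j := fun _ _ => rfl
  have hinj : Function.Injective φ := fun a b h => funext fun j => by
    have := congrFun h j
    rwa [hφ, hφ, Nat.cast_inj] at this
  have hw : ∀ s : ι →₀ ℕ, Finsupp.weight (fun i => φ (mw blk i)) s = φ (Finsupp.weight (mw blk) s) :=
    fun s => by simp only [Finsupp.weight_apply, Finsupp.sum, map_sum, map_nsmul]
  obtain ⟨r, ρ, e, hρ, he⟩ := exists_isSyz (fun i => φ (mw blk i)) F (fun a => φ (m a))
    fun a s hs => by rw [hw, hm a hs]
  refine ⟨r, ρ, fun l j => (e l j).toNat, hρ, fun l a => ?_⟩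
  by_cases h0 : ρ l a = 0
  · exact Or.inl h0
  obtain ⟨s, hs⟩ := ne_zero_iff.1 h0
  have h1 := he l a hs
  rw [hw] at h1
  refine Or.inr ⟨Finsupp.weight (mw blk) s, funext fun j => ?_, fun s' hs' => hinj ?_⟩
  · have := congrFun h1 j
    rw [Pi.sub_apply, hφ, hφ] at this
    simp only [Pi.add_apply]
    omega
  · rw [h1, ← hw]
    exact he l a hs'

end Crest.Agent.X262.Syz
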