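import Crest.Agent.X262.Syz.Tgt
import Crest.Agent.X262.Gwb.Defs

/-!
# Row 262, road B (helper26): the target of an embedded smooth projective variety

* `PIo m`, `py m` : the index types and the generic point of `m : Pre Y`;
* `exists_gen`, `lp_of_mchart`, `exists_lp_eq_mchart` : the local rings of the multi-charts are the
  local rings of `Y`;
* `nz_py`, `gen_py`, `smCh_py`; `T m`, `cut_T`, `genPt_T`, `smo_T`.
-/

set_option autoImplicit false

open MvPolynomial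

noncomputable section

namespace Crest.Agent.X262.Syz

open Crest.Agent.X277 Crest.Agent.X277.Lef Crest.Agent.X277.AN.G1 Crest.Agent.X277.BD
  Crest.Agent.X277.BD.Br Crest.Agent.X277.Cns
open Crest.Agent.X262.Coh Crest.Agent.X262.Gwb Crest.Agent.X262.Vb

variable {Y : SV}

/-- the index types -/
abbrev PIo (m : Pre Y) : m.J → Type := fun j => (m.T j).io

/-- the generic point -/
abbrev py (m : Pre Y) : Pnt (PIo m) Y.F := fun j => (m.T j).y

/-- the multi-chart -/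
abbrev mch (m : Pre Y) (c : m.J → Vr (PIo m)) : Subalgebra ℂ Y.F :=
  mchart ℂ Sigma.fst (fl (py m)) c

variable (m : Pre Y)

theorem nz_py : NZ (py m) := fun j => (m.reg j).1

theorem exists_gen (x : Y.Pt) (j : m.J) : ∃ i, At (m.T j).bd x ((m.T j).y i) := by
  obtain ⟨g, hg⟩ := (m.reg j).2 x
  exact hg.exists_mxf (m.reg j).1

variable {m}

theorem div_mem_lp {x : Y.Pt} {j : m.J} {i' : (m.T j).io} (h : At (m.T j).bd x ((m.T j).y i'))
    (i : (m.T j).io) : (m.T j).y i / (m.T j).y i' ∈ (lp x).O := h.div_mem (mem_Sec_mxf _ i)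

theorem div_mem_mch {c : m.J → Vr (PIo m)} (j : m.J) (i : (m.T j).io) :
    (m.T j).y i / fl (py m) (c j) ∈ mch m c :=
  Algebra.subset_adjoin ⟨⟨j, i⟩, rfl⟩


/-- a chart whose denominators generate at `x` has the local ring of `x` as a localisation -/
theorem lp_of_mchart {c : m.J → Vr (PIo m)} {x : Y.Pt}
    (h : ∀ j, At (m.T j).bd x (fl (py m) (c j))) : (lp x).Of (mch m c) := by
  have hle : mch m c ≤ (lp x).O := Algebra.adjoin_le (by
    rintro _ ⟨⟨j, i⟩, rfl⟩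
    exact (h j).div_mem (mem_Sec_mxf _ i))
  have key : ∀ a ∈ Algebra.adjoin ℂ (crdAt m.T x),
      ∃ a' ∈ mch m c, ∃ b ∈ mch m c, (lp x).v b ≠ 0 ∧ a * b = a' := by
    intro a ha
    induction ha using Algebra.adjoin_induction with
    | mem f hf =>
      obtain ⟨j, i, i', h1, rfl⟩ := hf
      exact ⟨_, div_mem_mch j i, _, div_mem_mch j i', h1.ev_div_ne (h j),
        div_mul_div_cancel₀ h1.ne⟩
    | algebraMap r => exact ⟨_, algebraMap_mem _ r, 1, one_mem _, by simp, mul_one _⟩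
    | add f g _ _ hf hg =>
      obtain ⟨a, ha, b, hb, h0, e⟩ := hf
      obtain ⟨a', ha', b', hb', h0', e'⟩ := hg
      refine ⟨a * b' + a' * b, add_mem (mul_mem ha hb') (mul_mem ha' hb), b * b', mul_mem hb hb',
        ?_, by rw [← e, ← e']; ring⟩
      rw [(lp x).v_mul (hle hb) (hle hb')]
      exact mul_ne_zero h0 h0'
    | mul f g _ _ hf hg =>
      obtain ⟨a, ha, b, hb, h0, e⟩ := hf
      obtain ⟨a', ha', b', hb', h0', e'⟩ := hg
      refine ⟨a * a', mul_mem ha ha', b * b', mul_mem hb hb', ?_, by rw [← e, ← e']; ring⟩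
      rw [(lp x).v_mul (hle hb) (hle hb')]
      exact mul_ne_zero h0 h0'
  refine ⟨hle, fun g hg => ?_⟩
  obtain ⟨a, ha, b, hb, h0, e⟩ := m.emb x g hg
  obtain ⟨a₁, ha₁, a₂, ha₂, h1, e1⟩ := key a ha
  obtain ⟨b₁, hb₁, b₂, hb₂, h2, e2⟩ := key b hb
  refine ⟨a₁ * b₂, mul_mem ha₁ hb₂, b₁ * a₂, mul_mem hb₁ ha₂, ?_, by rw [← e1, ← e2, ← e]; ring⟩
  rw [(lp x).v_mul (hle hb₁) (hle ha₂), ← e2, (lp x).v_mul (LP.mem_of_ne h0) (hle hb₂)]
  exact mul_ne_zero (mul_ne_zero h0 h2) h1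

/-- every localisation of a multi-chart is the local ring of a point -/
theorem exists_lp_eq_mchart {c : m.J → Vr (PIo m)} (hc : ∀ j, (c j).1 = j)
    (hy : ∀ j, fl (py m) (c j) ≠ 0) {L : LP Y.F} (hL : L.Of (mch m c)) :
    ∃ x : Y.Pt, (∀ j, At (m.T j).bd x (fl (py m) (c j))) ∧ lp x = L := by
  have hdiv : ∀ {x : Y.Pt} {j : m.J} {i : (m.T j).io}, At (m.T j).bd x ((m.T j).y i) →
      fl (py m) (c j) / (m.T j).y i ∈ (lp x).O := fun {x j i} h => by
    have h1 : fl (py m) (c j) ∈ (m.T (c j).1).bd.Sec := mem_Sec_mxf _ _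
    rw [hc] at h1
    exact h.div_mem h1
  obtain ⟨V, h1, h2⟩ := exists_val_dom L
  obtain ⟨x, hx⟩ := exists_ov Y.P (KV.of_le h1)
  have h3 : Algebra.adjoin ℂ (crdAt m.T x) ≤ L.O := Algebra.adjoin_le (by
    rintro _ ⟨j, i, i', h, rfl⟩
    rw [← div_div_div_cancel_right₀ (hy j)]
    refine LP.div_mem (hL.le (div_mem_mch j i)) ((h2 _ (hL.le (div_mem_mch j i'))).1
      ⟨div_ne_zero h.ne (hy j), h1 _ (hL.le (div_mem_mch j i')), ?_⟩)
    rw [inv_div]
    exact hx _ (hdiv h))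
  have h4 : (lp x).O ≤ L.O := fun g hg => by
    obtain ⟨a, ha, b, hb, h0, e⟩ := m.emb x g hg
    rw [eq_div_of_mul_eq (LP.ne_zero_of_ne h0) e]
    exact LP.div_mem (h3 ha) ((h2 _ (h3 hb)).1 (hx.un h0))
  obtain ⟨i, hi⟩ := exists_pat x
  obtain ⟨x', -, hd⟩ := AN.G1.exists_dom (P := Y.P) (i := i) L fun j => h4 (y_mem hi j)
  have h5 : ∀ j, At (m.T j).bd x' (fl (py m) (c j)) := fun j => by
    obtain ⟨i, h⟩ := exists_gen m x' j
    refine h.of_ev' ?_
    unfold ev
    rw [← hd.eq _ (hdiv h)]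
    refine LP.ne_of_inv_mem (hd.le (hdiv h)) (div_ne_zero (hy j) h.ne) ?_
    rw [inv_div]
    exact hL.le (div_mem_mch j i)
  exact ⟨x', h5, eq_of_dom_of hd hL (lp_of_mchart h5).le⟩

instance (c : m.J → Vr (PIo m)) : Algebra.FiniteType ℂ (mch m c) :=
  (Subalgebra.fg_iff_finiteType _).1
    ⟨(Set.finite_range fun v => fl (py m) v / fl (py m) (c v.1)).toFinset, by simp [mchart]⟩

theorem smooth_mch {c : m.J → Vr (PIo m)} (hc : ∀ j, (c j).1 = j)
    (hy : ∀ j, fl (py m) (c j) ≠ 0) : Algebra.Smooth ℂ (mch m c) :=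
  smooth_of_lp _ fun L hL => by
    obtain ⟨x, -, rfl⟩ := exists_lp_eq_mchart hc hy hL
    exact lp_fs x

variable (m)

theorem smCh_py : SmCh (py m) := fun _ hc hy => (smooth_mch hc hy).formallySmooth

theorem gen_py : Gen (py m) := by
  obtain ⟨x⟩ : Nonempty Y.Pt := inferInstance
  have h1 : Algebra.adjoin ℂ (crdAt m.T x) ≤
      (IntermediateField.adjoin ℂ {t | ∃ j i i', t = py m j i / py m j i'}).toSubalgebra :=
    Algebra.adjoin_le fun _ ⟨j, i, i', _, e⟩ => IntermediateField.subset_adjoin _ _ ⟨j, i, i', e⟩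
  have h2 : ∀ g ∈ (lp x).O,
      g ∈ IntermediateField.adjoin ℂ {t | ∃ j i i', t = py m j i / py m j i'} := fun g hg => by
    obtain ⟨a, ha, b, hb, h0, e⟩ := m.emb x g hg
    rw [eq_div_of_mul_eq (LP.ne_zero_of_ne h0) e]
    exact div_mem (h1 ha) (h1 hb)
  refine eq_top_iff.2 fun f _ => ?_
  obtain ⟨i, hi⟩ := exists_pat x
  obtain ⟨a, ha, b, hb, -, rfl⟩ := Y.P.frac' i f
  exact div_mem (h2 _ (A_le hi ha)) (h2 _ (A_le hi hb))

/-- the target of an embedding -/
abbrev T : Tgt (PIo m) (Fin (nEq (py m))) := tgt (py m)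

/-- the codimension of an embedding -/
abbrev cd : ℕ := cod (py m)

theorem cut_T : Cut (T m) (py m) := cut_tgt _

theorem genPt_T : GenPt (T m) (cd m) (py m) := (cut_T m).genPt (nz_py m) (gen_py m)

theorem dim_add_cd : Y.dim + cd m = adim (PIo m) := (genPt_T m).dm

/-- any system of generators of the ideal gives a smooth target -/
theorem Cut.smo_emb (m : Emb Y) {A : Type} [Fintype A] {T' : Tgt (PIo m.toPre) A}
    (h : Cut T' (py m.toPre)) : Smo T' (cd m.toPre) :=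
  h.smo (nz_py _) (gen_py _) (smCh_py _) m.cod


end Crest.Agent.X262.Syz
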