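import Crest.Agent.X262.Syz.Eqn3

/-!
# Row 262 (helper26): systems of equations which agree near a point

* `ker_jac_iff`, `ker_jac_le`, `KeyAt.of_loc` : only the ideal near the point matters;
* `pow_mul_mem` : Nullstellensatz form of saturation;
* `loc_of_chart` : membership in an ideal of the chart ring gives local membership on the cone.
-/

set_option autoImplicit false
set_option linter.unusedSectionVars false

open MvPolynomial

noncomputable section

namespace Crest.Agent.X262.Syz

variable {k : Type} [Field k] {ι κ κ' J : Type} [Fintype ι] [Fintype κ] [DecidableEq κ]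
  [Fintype κ'] [DecidableEq κ'] [Fintype J] [DecidableEq J] {blk : ι → J}
  {F : κ → MvPolynomial ι k} {F' : κ' → MvPolynomial ι k}

theorem aeval_of_span {K : Type*} [CommRing K] [Algebra k K] {η : ι → K}
    (hη : ∀ a, aeval η (F a) = 0) {G : MvPolynomial ι k} (hG : G ∈ Ideal.span (Set.range F)) :
    aeval η G = 0 :=
  (Ideal.span_le.2 (by rintro _ ⟨a, rfl⟩; exact hη a) :
    Ideal.span (Set.range F) ≤ RingHom.ker (aeval η : _ →ₐ[k] K)) hG

theorem ker_jac_iff {K : Type*} [CommRing K] [Algebra k K] {η : ι → K}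
    (hη : ∀ a, aeval η (F a) = 0) (v : ι → K) : (jac F η).mulVec v = 0 ↔
      ∀ G ∈ Ideal.span (Set.range F), ∑ i, aeval η (pderiv i G) * v i = 0 := by
  refine ⟨fun h G hG => ?_, fun h => funext fun a => h _ (Ideal.subset_span ⟨a, rfl⟩)⟩
  induction hG using Submodule.span_induction with
  | mem x hx => obtain ⟨a, rfl⟩ := hx; exact congrFun h a
  | zero => simp
  | add x y _ _ hx hy => simp only [map_add, add_mul, Finset.sum_add_distrib, hx, hy, add_zero]
  | smul a x hx0 hx =>
    simp only [smul_eq_mul, Derivation.leibniz, map_add, map_mul, aeval_of_span hη hx0, zero_mul,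
      add_zero, mul_assoc, ← Finset.mul_sum, hx, mul_zero]

theorem on_of_loc {K : Type*} [Field K] [Algebra k K] {η : ι → K} (hη : ∀ a, aeval η (F a) = 0)
    {G h : MvPolynomial ι k} (h0 : aeval η h ≠ 0) (hG : h * G ∈ Ideal.span (Set.range F)) :
    aeval η G = 0 := by
  have := aeval_of_span hη hG
  rw [map_mul] at this
  exact (mul_eq_zero.1 this).resolve_left h0

theorem ker_jac_le {K : Type*} [Field K] [Algebra k K] {η : ι → K} (hη : ∀ a, aeval η (F a) = 0)
    (h : ∀ b, ∃ h, aeval η h ≠ 0 ∧ h * F' b ∈ Ideal.span (Set.range F)) {v : ι → K}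
    (hv : (jac F η).mulVec v = 0) : (jac F' η).mulVec v = 0 := by
  funext b
  obtain ⟨g, hg0, hg⟩ := h b
  have h1 := (ker_jac_iff hη v).1 hv _ hg
  simp only [Derivation.leibniz, smul_eq_mul, map_add, map_mul, on_of_loc hη hg0 hg, zero_mul,
    add_zero, mul_assoc, ← Finset.mul_sum] at h1
  exact (mul_eq_zero.1 h1).resolve_left hg0

theorem rank_jac_of_loc {K : Type*} [Field K] [Algebra k K] {η : ι → K}
    (hη : ∀ a, aeval η (F a) = 0) (hη' : ∀ b, aeval η (F' b) = 0)
    (h : ∀ b, ∃ h, aeval η h ≠ 0 ∧ h * F' b ∈ Ideal.span (Set.range F))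
    (h' : ∀ a, ∃ h, aeval η h ≠ 0 ∧ h * F a ∈ Ideal.span (Set.range F')) :
    (jac F η).rank = (jac F' η).rank := by
  have e : LinearMap.ker (jac F η).mulVecLin = LinearMap.ker (jac F' η).mulVecLin :=
    Submodule.ext fun v => ⟨ker_jac_le hη h, ker_jac_le hη' h'⟩
  have h1 := LinearMap.finrank_range_add_finrank_ker (jac F η).mulVecLin
  have h2 := LinearMap.finrank_range_add_finrank_ker (jac F' η).mulVecLin
  rw [e] at h1
  unfold Matrix.rank
  omega


/-- Nullstellensatz form of saturation -/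
theorem pow_mul_mem [IsAlgClosed k] (I : Ideal (MvPolynomial ι k)) (u q : MvPolynomial ι k)
    (h : ∀ η : ι → k, (∀ G ∈ I, aeval η G = 0) → aeval η u ≠ 0 →
      ∃ g, aeval η g ≠ 0 ∧ g * q ∈ I) : ∃ N : ℕ, u ^ N * q ∈ I := by
  have h1 : u ∈ (I.colon {q}).radical := by
    rw [← vanishingIdeal_zeroLocus_eq_radical (K := k), mem_vanishingIdeal_iff]
    intro η hη
    by_contra hu
    rw [mem_zeroLocus_iff] at hη
    obtain ⟨g, hg0, hg⟩ := h η
      (fun G hG => hη G (Submodule.mem_colon_singleton.2 (I.mul_mem_right _ hG))) hu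
    exact hg0 (hη g (Submodule.mem_colon_singleton.2 hg))
  obtain ⟨N, hN⟩ := h1
  exact ⟨N, Submodule.mem_colon_singleton.1 hN⟩

variable {L : Type} [Field L] [Algebra k L]

/-- membership in an ideal of the chart ring gives local membership on the cone -/
theorem loc_of_chart {y : ι → L} {c : J → ι} (hc : ∀ j, blk (c j) = j) (hy : ∀ j, y (c j) ≠ 0)
    {q : MvPolynomial ι k} {d : J → ℕ} (hq : IsWeightedHomogeneous (mw blk) q d) {α : Type}
    [Fintype α] {g : α → MvPolynomial ι k} {e : α → J → ℕ}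
    (hg : ∀ a, IsWeightedHomogeneous (mw blk) (g a) (e a)) {K : Type} [Field K] [Algebra k K]
    {η : ι → K} {t : J → K} (ht : ∀ j, t j * η (c j) = 1) {b : MvPolynomial ι k}
    (hb : aeval (fun i => t (blk i) * η i) b ≠ 0) (r : α → MvPolynomial ι k)
    (h : aeval (fun i => y i / y (c (blk i))) (b * q - ∑ a, r a * g a) = 0) :
    ∃ h, aeval η h ≠ 0 ∧ h * q ∈ hI k blk y ⊔ Ideal.span (Set.range g) := by
  classical
  obtain ⟨E, B, hB, eB⟩ := exists_homog hc b
  choose D R hR eR using fun a => exists_homog hc (r a)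
  let W : J → ℕ := ∑ a, (D a + e a)
  let W' : α → J → ℕ := fun a => E + d + ∑ a' ∈ Finset.univ.erase a, (D a' + e a')
  have hW : ∀ a, W' a + D a + e a = W + E + d := fun a => by
    simp only [W, W']
    rw [← Finset.add_sum_erase _ _ (Finset.mem_univ a)]
    abel
  have hG : IsWeightedHomogeneous (mw blk) ((∏ j, X (c j) ^ W j) * B * q -
      ∑ a, (∏ j, X (c j) ^ W' a j) * R a * g a) (W + E + d) :=
    (((hom_prod_pow hc W).mul hB).mul hq).sub (IsWeightedHomogeneous.sum _ _ _ fun a _ =>
      hW a ▸ ((hom_prod_pow hc (W' a)).mul (hR a)).mul (hg a))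
  have h1 : ∀ j, y (c j) / y (c (blk (c j))) = 1 := fun j => by rw [hc, div_self (hy j)]
  have eB' := eB L (fun i => y i / y (c (blk i))) (fun _ => 1) fun j => by rw [h1, mul_one]
  have eR' := fun a =>
    eR a L (fun i => y i / y (c (blk i))) (fun _ => 1) fun j => by rw [h1, mul_one]
  simp only [one_mul, one_pow, Finset.prod_const_one] at eB' eR'
  have h2 : aeval y ((∏ j, X (c j) ^ W j) * B * q - ∑ a, (∏ j, X (c j) ^ W' a j) * R a * g a) = 0 := by
    have h3 := aeval_scale (fun j => (y (c j))⁻¹) y hG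
    simp only [← div_eq_inv_mul] at h3
    have h4 : aeval (fun i => y i / y (c (blk i))) ((∏ j, X (c j) ^ W j) * B * q -
        ∑ a, (∏ j, X (c j) ^ W' a j) * R a * g a) = 0 := by
      simp only [map_sub, map_mul, map_sum, map_prod, map_pow, aeval_X, h1, one_pow,
        Finset.prod_const_one, one_mul, ← eB', ← eR'] at h ⊢
      exact h
    rw [h4, eq_comm, mul_eq_zero] at h3
    exact h3.resolve_left (Finset.prod_ne_zero_iff.2 fun j _ => pow_ne_zero _ (inv_ne_zero (hy j)))
  refine ⟨(∏ j, X (c j) ^ W j) * B, ?_, ?_⟩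
  · rw [eB K η t ht] at hb
    simp only [map_mul, map_prod, map_pow, aeval_X]
    exact mul_ne_zero (Finset.prod_ne_zero_iff.2 fun j _ =>
      pow_ne_zero _ (right_ne_zero_of_mul_eq_one (ht j))) (right_ne_zero_of_mul hb)
  · have h5 := add_mem (Submodule.mem_sup_left (T := Ideal.span (Set.range g)) (mem_hI hG h2))
      (Submodule.mem_sup_right (Ideal.sum_mem _ fun a (_ : a ∈ Finset.univ) =>
        Ideal.mul_mem_left _ ((∏ j, X (c j) ^ W' a j) * R a) (Ideal.subset_span ⟨a, rfl⟩)))
    rwa [sub_add_cancel] at h5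

end Crest.Agent.X262.Syz
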