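import Crest.Agent.X262.Syz.Tgt
import Crest.Agent.X262.Syz.Sat0
import Crest.Agent.X262.Syz.Emb
import Crest.Agent.X262.End66.Defs
import Crest.Agent.X262.Gwb59.Defs

-- ▼ part X262/Syz/Sat
section

/-!
# Row 262, road B (helper26): equations which cut out the variety up to saturation

* `Sat T y` : the equations vanish at `y` and generate the ideal of `y` up to saturation;
* `Cut.sat`, `sat_of_loc` (test at the complex points), `Sat.loc`, `Sat.irr`, `Sat.on_iff`,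
  `Sat.ker_jac`, `Sat.genPt`, `Sat.smo`.
-/

set_option autoImplicit false
set_option linter.unusedSectionVars false

open MvPolynomial

noncomputable section

namespace Crest.Agent.X262.Syz

open Crest.Agent.X277.BD Crest.Agent.X262.Vb

variable {J : Type} [Fintype J] [DecidableEq J] {io : J → Type} [∀ j, Fintype (io j)]
  [∀ j, DecidableEq (io j)] {A A' : Type} [Fintype A] [Fintype A'] {K : Type} [Field K]
  [Algebra ℂ K]

/-- the equations of `T` generate the multihomogeneous ideal of `y` up to saturation -/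
def Sat (T : Tgt io A) (y : Pnt io K) : Prop :=
  T.On y ∧ ∀ q κ, MH q κ → pv y q = 0 → ∀ c : (j : J) → io j,
    ∃ N : ℕ, (∏ j, X ⟨j, c j⟩) ^ N * q ∈ Ideal.span (Set.range T.F)

variable {T : Tgt io A} {T' : Tgt io A'} {y : Pnt io K}

theorem Cut.sat (h : Cut T y) : Sat T y :=
  ⟨h.on, fun _ _ hq h0 _ => ⟨0, by simpa using h.mem hq h0⟩⟩

/-- saturation can be tested at the complex points -/
theorem sat_of_loc (hy : T.On y) (h : ∀ q κ, MH q κ → pv y q = 0 → ∀ η : Pnt io ℂ, NZ η →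
    T.On η → ∃ g, pv η g ≠ 0 ∧ g * q ∈ Ideal.span (Set.range T.F)) : Sat T y :=
  ⟨hy, fun q κ hq h0 c => pow_mul_mem _ _ _ fun η hη hu =>
    h q κ hq h0 (fun j i => η ⟨j, i⟩) (fun j => ⟨c j, fun e => hu (by
      rw [map_prod]
      exact Finset.prod_eq_zero (Finset.mem_univ j) (by rw [aeval_X]; exact e))⟩)
      fun a => hη _ (Ideal.subset_span ⟨a, rfl⟩)⟩

namespace Sat

theorem on (h : Sat T y) : T.On y := h.1

theorem loc (h : Sat T y) {q : MvPolynomial (Vr io) ℂ} {κ : J → ℕ} (hq : MH q κ)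
    (h0 : pv y q = 0) {E : Type} [Field E] [Algebra ℂ E] {η : Pnt io E} (hη : NZ η) :
    ∃ g, pv η g ≠ 0 ∧ g * q ∈ Ideal.span (Set.range T.F) := by
  choose c hc using hη
  obtain ⟨N, hN⟩ := h.2 q κ hq h0 c
  refine ⟨_, ?_, hN⟩
  simp only [pv, map_pow, map_prod, aeval_X]
  exact pow_ne_zero _ (Finset.prod_ne_zero_iff.2 fun j _ => hc j)

theorem irr (h : Sat T y) {q : MvPolynomial (Vr io) ℂ} {κ : J → ℕ} (hq : MH q κ) (h0 : pv y q = 0)
    {E : Type} [Field E] [Algebra ℂ E] {η : Pnt io E} (hη : NZ η) (hT : T.On η) : pv η q = 0 := by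
  classical
  obtain ⟨g, hg0, hg⟩ := h.loc hq h0 hη
  exact on_of_loc hT hg0 hg

theorem on_iff (h : Sat T y) {E : Type} [Field E] [Algebra ℂ E] {η : Pnt io E} (hη : NZ η) :
    T.On η ↔ ∀ q κ, MH q κ → pv y q = 0 → pv η q = 0 :=
  ⟨fun hT _ _ hq h0 => h.irr hq h0 hη hT, fun hη a => hη _ _ (T.hom a) (h.on a)⟩

/-- two systems for the same point have the same points -/
theorem on_of (h : Sat T y) (h' : T'.On y) {E : Type} [Field E] [Algebra ℂ E] {η : Pnt io E}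
    (hη : NZ η) (hT : T.On η) : T'.On η := fun b => h.irr (T'.hom b) (h' b) hη hT


theorem genPt (h : Sat T y) (hy : NZ y) (hg : Gen y) : GenPt T (cod y) y :=
  ⟨hy, h.on, hg, (cut_tgt y).dim_add hy hg, fun _ _ hq h0 _ _ _ _ hη hT => h.irr hq h0 hη hT⟩


theorem finrank_Nm (h : Sat T y) (hy : NZ y) (hg : Gen y) (hs : SmCh y) {E : Type} [Field E]
    [Algebra ℂ E] {η : Pnt io E} (hη : NZ η) (hT : T.On η) :
    Module.finrank E (T.Nm η) = cod y := by
  classical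
  have h0 := cut_tgt y
  have hT0 : (tgt y).On η := h.on_of h0.on hη hT
  rw [← h0.finrank_Nm hy hg hs hη hT0, Syz.finrank_Nm, Syz.finrank_Nm]
  exact rank_jac_of_loc hT hT0 (fun b => h.loc ((tgt y).hom b) (h0.on b) hη)
    fun a => h0.sat.loc (T.hom a) (h.on a) hη



end Sat


end Crest.Agent.X262.Syz
end
end

-- ▼ part X262/Syz/Sub
section

/-!
# Row 262, road B (helper26): equations of subvarieties

* `Sat.same`, `Sat.rk`, `Sat.rx`, `Cut.rx` : the link with `End66.Same`, `Rk`, `Rx`;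
* `exists_pt_of_on` : complex points of the target are points of the variety;
* `Rst μ m y'` : `y'` is the restriction of the coordinates along `μ`; `Rst.ratio`, `Rst.on`;
* `sat_sub` : local equations of a subvariety; `sat_hyp` : a smooth hyperplane section.
-/

set_option autoImplicit false
set_option linter.unusedSectionVars false

open MvPolynomial

noncomputable section

namespace Crest.Agent.X262.Syz

open Crest.Agent.X277 Crest.Agent.X277.Lef Crest.Agent.X277.AN.G1 Crest.Agent.X277.BD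
  Crest.Agent.X277.BD.Br Crest.Agent.X277.Cns
open Crest.Agent.X262.Coh Crest.Agent.X262.Gwb Crest.Agent.X262.Vb Crest.Agent.X262.End66

section Gen

variable {J : Type} [Fintype J] [DecidableEq J] {io : J → Type} [∀ j, Fintype (io j)]
  [∀ j, DecidableEq (io j)] {A A' : Type} [Fintype A] [Fintype A'] {K : Type} [Field K]
  [Algebra ℂ K] {T : Tgt io A} {T' : Tgt io A'} {y : Pnt io K}
variable {J' : Type} [Fintype J'] [DecidableEq J'] {io' : J' → Type} [∀ j, Fintype (io' j)]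
  [∀ j, DecidableEq (io' j)]

theorem Sat.same (h : Sat T y) (h' : Sat T' y) : Same T T' :=
  ⟨fun b _ _ _ _ hη _ => h.loc (T'.hom b) (h'.on b) hη,
    fun a _ _ _ _ hη _ => h'.loc (T.hom a) (h.on a) hη⟩

theorem Sat.loc_hI (h : Sat T y) {E : Type} [Field E] [Algebra ℂ E] {η : Pnt io E} (hη : NZ η)
    {G : MvPolynomial (Vr io) ℂ} (hG : G ∈ hI ℂ Sigma.fst (fl y)) :
    ∃ g, pv η g ≠ 0 ∧ g * G ∈ Ideal.span (Set.range T.F) := by
  induction hG using Submodule.span_induction with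
  | mem x hx => obtain ⟨⟨κ, h1⟩, h2⟩ := hx; exact h.loc h1 h2 hη
  | zero => exact ⟨1, by simp [pv], by simp⟩
  | add a b _ _ ha hb =>
    obtain ⟨g, h0, h1⟩ := ha
    obtain ⟨g', h0', h1'⟩ := hb
    refine ⟨g * g', by rw [pv, map_mul]; exact mul_ne_zero h0 h0', ?_⟩
    have := add_mem (Ideal.mul_mem_left _ g' h1) (Ideal.mul_mem_left _ g h1')
    convert this using 1
    ring
  | smul a b _ hb =>
    obtain ⟨g, h0, h1⟩ := hb
    exact ⟨g, h0, by rw [smul_eq_mul, mul_left_comm]; exact Ideal.mul_mem_left _ _ h1⟩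



theorem mh_rename_symm (r : Rx io io') {q : MvPolynomial (Vr io') ℂ} {κ : J' → ℕ} (h : MH q κ) :
    MH (rename r.vr.symm q) fun j => κ (r.e j) := by
  intro s hs
  obtain ⟨u, rfl, hu⟩ := coeff_rename_ne_zero _ _ _ hs
  rw [← h hu]
  funext j
  rw [Finsupp.weight_apply, Finsupp.weight_apply,
    Finsupp.sum_mapDomain_index (by simp) (by simp [add_smul]), Finsupp.sum, Finsupp.sum,
    Finset.sum_apply, Finset.sum_apply]
  refine Finset.sum_congr rfl fun v _ => ?_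
  obtain ⟨v, rfl⟩ := r.vr.surjective v
  rw [Equiv.symm_apply_apply]
  change u _ • (Pi.single v.1 1 : J → ℕ) j = u _ • (Pi.single (r.e v.1) 1 : J' → ℕ) (r.e j)
  simp [Pi.single_apply]

/-- renumbering -/
theorem Sat.rx (r : Rx io io') {y' : Pnt io' K} (h : Sat T (r.pt y')) : Sat (r.tgt T) y' := by
  refine sat_of_loc ((r.on_tgt T y').2 h.on) fun q κ hq h0 η hη _ => ?_
  have e : rename r.vr (rename r.vr.symm q) = q := by
    rw [rename_rename, Equiv.self_comp_symm, rename_id, AlgHom.id_apply]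
  obtain ⟨g, hg0, hg⟩ := h.loc (mh_rename_symm r hq) (by rw [← r.pv_rename, e]; exact h0)
    ((r.nz_pt η).2 hη)
  refine ⟨rename r.vr g, by rwa [r.pv_rename], ?_⟩
  have := Ideal.mem_map_of_mem (rename r.vr : MvPolynomial (Vr io) ℂ →ₐ[ℂ] _) hg
  rwa [map_mul, e, Ideal.map_span, ← Set.range_comp] at this

theorem mh_X (j : J) (i : io j) : MH (X (⟨j, i⟩ : Vr io)) (Pi.single j 1) :=
  isWeightedHomogeneous_X ℂ _ _

end Gen

variable {X Y : SV} {m : Pre Y} {A A' : Type} [Fintype A] [Fintype A']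

/-- the affine coordinates of a multi-chart -/
abbrev afc (m : Pre Y) (c : m.J → Vr (PIo m)) : Vr (PIo m) → Y.F :=
  fun v => fl (py m) v / fl (py m) (c v.1)

theorem aeval_afc_mem (c : m.J → Vr (PIo m)) (g : MvPolynomial (Vr (PIo m)) ℂ) :
    aeval (afc m c) g ∈ mch m c := by
  rw [← coe_mpi]
  exact (mpi ℂ Sigma.fst (fl (py m)) c g).2

theorem exists_aeval_afc {c : m.J → Vr (PIo m)} {f : Y.F} (hf : f ∈ mch m c) :
    ∃ g : MvPolynomial (Vr (PIo m)) ℂ, aeval (afc m c) g = f := by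
  obtain ⟨g, hg⟩ := mpi_surj (fl (py m)) c ⟨f, hf⟩
  exact ⟨g, (coe_mpi _ c g).symm.trans (congrArg Subtype.val hg)⟩

/-- complex points of the target are points of the variety -/
theorem exists_pt_of_on {T : Tgt (PIo m) A} (hT : Sat T (py m)) {η : Pnt (PIo m) ℂ}
    (hη : T.On η) {c : m.J → Vr (PIo m)} (hc : ∀ j, (c j).1 = j) (h0 : ∀ j, fl η (c j) ≠ 0) :
    ∃ x : Y.Pt, (∀ j, At (m.T j).bd x (fl (py m) (c j))) ∧
      ∀ g : MvPolynomial (Vr (PIo m)) ℂ,
        ev (aeval (afc m c) g) x = aeval (fun v => (fl η (c v.1))⁻¹ * fl η v) g := by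
  have hz : NZ η := (nz_iff η).2 fun j => ⟨c j, hc j, h0 j⟩
  have h1 : (Syz.T m).On η := hT.on_of (cut_T m).on hz hη
  have hy : ∀ j, fl (py m) (c j) ≠ 0 := fun j => ne_of_on (cut_T m) h1 (h0 j)
  obtain ⟨φ, hφ⟩ := exists_hom_of_on (cut_T m) hc hy h1 (t := fun j => (fl η (c j))⁻¹)
    fun j => inv_mul_cancel₀ (h0 j)
  obtain ⟨x, hx, e⟩ := exists_lp_eq_mchart hc hy (LP.of_lpAt φ)
  refine ⟨x, hx, fun g => ?_⟩
  rw [← hφ, ← lpAt_v φ, ← e, coe_mpi]

/-- `y'` is the restriction of the coordinates along `μ` -/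
def Rst (μ : Hom X Y) (m : Pre Y) (y' : Pnt (PIo m) X.F) : Prop :=
  NZ y' ∧ ∀ k, ∃ (u : Y.F) (c : X.F), (∀ i, py m k i / u ∈ μ.p.O) ∧
    ∀ i, y' k i = c * μ.p.π (py m k i / u)

variable {μ : Hom X Y} {y' : Pnt (PIo m) X.F}

theorem Rst.ratio (h : Rst μ m y') {x : X.Pt} {k : m.J} {v : Vr (PIo m)} (hv : v.1 = k)
    (hx : At (m.T k).bd (μ.map x) (fl (py m) v)) :
    fl y' v ≠ 0 ∧ ∀ l, y' k l / fl y' v = μ.p.π (py m k l / fl (py m) v) := by
  obtain ⟨k, i⟩ := v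
  subst hv
  obtain ⟨u, c, h1, h2⟩ := h.2 k
  obtain ⟨i₀, hi₀⟩ := h.1 k
  have h3 : ∀ l, y' k l = μ.p.π (py m k l / py m k i) * y' k i := fun l => by
    rw [h2, h2, mul_left_comm, ← μ.p.π_mul (μ.mem_O (div_mem_lp hx l)) (h1 i),
      div_mul_div_cancel₀ hx.ne]
  have h4 : y' k i ≠ 0 := fun h0 => hi₀ (by rw [h3, h0, mul_zero])
  exact ⟨h4, fun l => by rw [h3 l]; exact mul_div_cancel_right₀ _ h4⟩

theorem Rst.π_aeval (h : Rst μ m y') {x : X.Pt} {c : m.J → Vr (PIo m)} (hc : ∀ j, (c j).1 = j)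
    (hx : ∀ j, At (m.T j).bd (μ.map x) (fl (py m) (c j))) (g : MvPolynomial (Vr (PIo m)) ℂ) :
    μ.p.π (aeval (afc m c) g) = aeval (fun v => (fl y' (c v.1))⁻¹ * fl y' v) g := by
  rw [(μ.p.π_aeval (fun v => μ.mem_O ((lp_of_mchart hx).le (div_mem_mch v.1 v.2))) g).2]
  congr 2
  funext v
  rw [← div_eq_inv_mul]
  exact ((h.ratio (hc v.1) (hx v.1)).2 v.2).symm

theorem Rst.π_eq_zero (h : Rst μ m y') {x : X.Pt} {c : m.J → Vr (PIo m)} (hc : ∀ j, (c j).1 = j)
    (hx : ∀ j, At (m.T j).bd (μ.map x) (fl (py m) (c j))) {q : MvPolynomial (Vr (PIo m)) ℂ}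
    {κ : m.J → ℕ} (hq : MH q κ) : μ.p.π (aeval (afc m c) q) = 0 ↔ pv y' q = 0 := by
  rw [h.π_aeval hc hx, aeval_scale (fun j => (fl y' (c j))⁻¹) (fl y') hq]
  exact mul_eq_zero_iff_left (Finset.prod_ne_zero_iff.2 fun j _ =>
    pow_ne_zero _ (inv_ne_zero (h.ratio (hc j) (hx j)).1))

theorem exists_sec (m : Pre Y) (x : Y.Pt) : ∃ c : m.J → Vr (PIo m), (∀ j, (c j).1 = j) ∧
    ∀ j, At (m.T j).bd x (fl (py m) (c j)) := by
  choose i hi using exists_gen m x
  exact ⟨fun j => ⟨j, i j⟩, fun _ => rfl, hi⟩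

theorem aeval_afc_eq_zero {c : m.J → Vr (PIo m)} {q : MvPolynomial (Vr (PIo m)) ℂ} {κ : m.J → ℕ}
    (hq : MH q κ) (h0 : pv (py m) q = 0) : aeval (afc m c) q = 0 := by
  have := aeval_scale (fun j => (fl (py m) (c j))⁻¹) (fl (py m)) hq
  simp only [← div_eq_inv_mul] at this
  exact this.trans (by rw [show aeval (fl (py m)) q = 0 from h0, mul_zero])

/-- the restricted point satisfies the equations -/
theorem Rst.irr (h : Rst μ m y') {q : MvPolynomial (Vr (PIo m)) ℂ} {κ : m.J → ℕ} (hq : MH q κ)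
    (h0 : pv (py m) q = 0) : pv y' q = 0 := by
  obtain ⟨x⟩ : Nonempty X.Pt := inferInstance
  obtain ⟨c, hc, hx⟩ := exists_sec m (μ.map x)
  rw [← h.π_eq_zero hc hx hq, aeval_afc_eq_zero hq h0, Plc.π_zero]

theorem Rst.on (h : Rst μ m y') {T : Tgt (PIo m) A} (hT : T.On (py m)) : T.On y' :=
  fun a => h.irr (T.hom a) (hT a)

/-- **local equations of a subvariety** -/
theorem sat_sub (h : Rst μ m y') {T : Tgt (PIo m) A} (hT : Sat T (py m)) {T' : Tgt (PIo m) A'}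
    (hle : ∀ a, T.F a ∈ Ideal.span (Set.range T'.F)) (hon : T'.On y')
    (hloc : ∀ (x : Y.Pt) (c : m.J → Vr (PIo m)), (∀ j, (c j).1 = j) →
      (∀ j, At (m.T j).bd x (fl (py m) (c j))) → (∀ b, ev (aeval (afc m c) (T'.F b)) x = 0) →
      ∃ x', μ.map x' = x ∧ ∀ f ∈ (lp x).O, μ.p.π f = 0 →
        ∃ r : A' → Y.F, (∀ b, r b ∈ (lp x).O) ∧ f = ∑ b, r b * aeval (afc m c) (T'.F b)) :
    Sat T' y' := by
  classical
  refine sat_of_loc hon fun q κ hq h0 η hη hT' => ?_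
  have hTη : T.On η := fun a => aeval_of_span (F := T'.F) hT' (hle a)
  obtain ⟨c, hc⟩ := Classical.axiomOfChoice ((nz_iff η).1 hη)
  have hc1 : ∀ j, (c j).1 = j := fun j => (hc j).1
  obtain ⟨x, hx, hev⟩ := exists_pt_of_on hT hTη hc1 fun j => (hc j).2
  obtain ⟨x', rfl, hf⟩ := hloc x c hc1 hx fun b => by
    rw [hev, aeval_scale (fun j => (fl η (c j))⁻¹) (fl η) (T'.hom b),
      show aeval (fl η) (T'.F b) = 0 from hT' b, mul_zero]
  have hof := lp_of_mchart hx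
  obtain ⟨r, hr, e⟩ := hf _ (hof.le (aeval_afc_mem c q)) ((h.π_eq_zero hc1 hx hq).2 h0)
  choose a ha s hs hs0 has using fun b => hof.loc _ (hr b)
  choose a' ha' using fun b => exists_aeval_afc (ha b)
  choose s' hs' using fun b => exists_aeval_afc (hs b)
  obtain ⟨g, hg0, hg⟩ := loc_of_chart (y := fl (py m)) hc1 (fun j => (hx j).ne) hq T'.hom
    (η := fl η) (t := fun j => (fl η (c j))⁻¹) (fun j => inv_mul_cancel₀ (hc j).2)
    (b := ∏ b, s' b) (by
      rw [map_prod]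
      exact Finset.prod_ne_zero_iff.2 fun b _ => by rw [← hev, hs']; exact hs0 b)
    (fun b => a' b * ∏ b' ∈ Finset.univ.erase b, s' b') (by
      change aeval (afc m c) _ = 0
      simp only [map_sub, map_mul, map_sum, map_prod, ha', hs', ← has]
      rw [e, Finset.mul_sum, sub_eq_zero]
      refine Finset.sum_congr rfl fun b _ => ?_
      rw [← Finset.mul_prod_erase _ _ (Finset.mem_univ b)]
      ring)
  obtain ⟨G, hG, G', hG', eG⟩ := Submodule.mem_sup.1 hg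
  obtain ⟨g', hg0', hg'⟩ := hT.loc_hI hη hG
  refine ⟨g' * g, by rw [pv, map_mul]; exact mul_ne_zero hg0' hg0, ?_⟩
  rw [mul_assoc, ← eG, mul_add]
  exact add_mem ((Ideal.span_le.2 (by rintro _ ⟨a, rfl⟩; exact hle a) :
    Ideal.span (Set.range T.F) ≤ _) hg') (Ideal.mul_mem_left _ _ hG')

/-- **a smooth hyperplane section** -/
theorem sat_hyp (h : Rst μ m y') {T : Tgt (PIo m) A} (hT : Sat T (py m)) {k₀ : m.J}
    {i₀ : (m.T k₀).io} (h₀ : (m.T k₀).y i₀ ≠ 0)
    (hD : IsDv μ ((m.T k₀).bd - pr ℂ ((m.T k₀).y i₀))) : Sat (add T (mh_X k₀ i₀)) y' := by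
  have key : ∀ (x' : X.Pt) (c : m.J → Vr (PIo m)),
      (∀ j, At (m.T j).bd (μ.map x') (fl (py m) (c j))) → ∀ f ∈ (lp (μ.map x')).O,
      μ.p.π f = 0 ↔ f / ((m.T k₀).y i₀ / fl (py m) (c k₀)) ∈ (lp (μ.map x')).O := by
    intro x' c hx f hf
    obtain ⟨t, -, h1, h2⟩ := hD.eqn x'
    have h3 := ((hx k₀).sub (at_pr (μ.map x') h₀)).neg
    have h4 := h1.neg
    rw [inv_div] at h3
    rw [inv_inv] at h4
    exact (h2 f hf).trans ⟨h4.chg h3, h3.chg h4⟩
  refine sat_sub h hT (fun a => Ideal.subset_span ⟨some a, rfl⟩) ?_ fun x c hc hx h0 => ?_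
  · rintro (_ | a)
    · obtain ⟨x⟩ : Nonempty X.Pt := inferInstance
      obtain ⟨c, hc, hx⟩ := exists_sec m (μ.map x)
      have h1 := (key x c hx _ ((lp_of_mchart hx).le (div_mem_mch k₀ i₀))).2 (by
        rw [div_self (div_ne_zero h₀ (hx k₀).ne)]
        exact one_mem _)
      have h2 := (h.π_eq_zero hc hx (mh_X k₀ i₀)).1 (by rw [aeval_X]; exact h1)
      exact h2
    · exact h.on hT.on a
  · have h1 : ev ((m.T k₀).y i₀ / fl (py m) (c k₀)) x = 0 := by
      have := h0 none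
      rwa [show (add T (mh_X k₀ i₀)).F none = MvPolynomial.X ⟨k₀, i₀⟩ from rfl, aeval_X] at this
    obtain ⟨x', rfl⟩ : x ∈ Set.range μ.map := by
      by_contra hn
      have h2 := (hD.off x hn).add (at_pr x h₀)
      rw [sub_add_cancel, one_mul] at h2
      exact h2.ev_div_ne (hx k₀) h1
    classical
    refine ⟨x', rfl, fun f hf hπ => ⟨fun b => b.elim (f / ((m.T k₀).y i₀ / fl (py m) (c k₀)))
      fun _ => 0, ?_, ?_⟩⟩
    · rintro (_ | a)
      exacts [(key x' c hx f hf).1 hπ, zero_mem _]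
    · rw [Fintype.sum_option]
      simp only [Option.elim, zero_mul, Finset.sum_const_zero, add_zero]
      rw [show (add T (mh_X k₀ i₀)).F none = MvPolynomial.X ⟨k₀, i₀⟩ from rfl, aeval_X]
      exact (div_mul_cancel₀ _ (div_ne_zero h₀ (hx k₀).ne)).symm

end Crest.Agent.X262.Syz
end
end

-- ▼ part X262/Syz/Fin

/-!
# Row 262, road B (helper26): `SmoStmt`, `GenStmt` and the targets of restrictions

* `smoStmt`, `genStmt`, `cut_pre`, `sat_pre`;
* `RsD.rst`, `RsD.on` : restriction of tuples; `same_hyp`, `rk_hyp` : hyperplane sections.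
-/

set_option autoImplicit false
set_option linter.unusedSectionVars false

open MvPolynomial

noncomputable section

namespace Crest.Agent.X262.Syz

open Crest.Agent.X277 Crest.Agent.X277.BD
open Crest.Agent.X262.Coh Crest.Agent.X262.Gwb Crest.Agent.X262.Vb Crest.Agent.X262.End66

variable {X Y : SV}

theorem cut_pre (m : Pre Y) : Cut m.tgt (py m) := m.tgt_isEq

theorem sat_pre (m : Pre Y) : Sat m.tgt (py m) := (cut_pre m).sat


/-- the generic point -/
theorem genStmt : GenStmt := fun _ m => (cut_pre m).genPt (nz_py m) (gen_py m)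

theorem dim_add_cod (m : Pre Y) : Y.dim + m.cod = adim m.io := (genStmt Y m).dm

theorem finrank_Nm_pre (m : Pre Y) {E : Type} [Field E] [Algebra ℂ E] {η : Pnt m.io E}
    (hη : NZ η) (hT : m.On η) : Module.finrank E (m.tgt.Nm η) = m.cod :=
  (cut_pre m).finrank_Nm (nz_py m) (gen_py m) (smCh_py m) hη (Pre.on_iff.2 hT)

variable {μ : Hom X Y} {n : Pre Y} {m : Pre X} {g : n.J → m.J}

theorem nz_rsD (D : RsD μ n m g) {E : Type} [Field E] {z : Pnt m.io E} (hz : NZ z) :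
    NZ (D.pt z) := fun k => by
  obtain ⟨i, hi⟩ := hz (g k)
  obtain ⟨i, rfl⟩ := (D.e k).surjective i
  exact ⟨i, hi⟩

theorem rst_rsD (D : RsD μ n m g) : Rst μ n (D.pt m.y) :=
  ⟨nz_rsD D m.nz_y, fun k => ⟨D.u k, D.c k, D.mem k, D.eq k⟩⟩

/-- the renumbering of a restriction along a bijection of the factors -/
def rxD {e : n.J ≃ m.J} (D : RsD μ n m e) : Rx n.io m.io := ⟨e, D.e⟩


/-- **a smooth hyperplane section**: the two systems of equations agree -/
theorem sat_hyp_rx {e : n.J ≃ m.J} (D : RsD μ n m e) {k₀ : n.J} {i₀ : (n.T k₀).io}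
    (h₀ : (n.T k₀).y i₀ ≠ 0) (hD : IsDv μ ((n.T k₀).bd - pr ℂ ((n.T k₀).y i₀))) :
    Sat ((rxD D).tgt (add n.tgt (mh_X k₀ i₀))) (py m) :=
  Sat.rx _ (sat_hyp (rst_rsD D) (sat_pre n) h₀ hD)

theorem same_hyp {e : n.J ≃ m.J} (D : RsD μ n m e) {k₀ : n.J} {i₀ : (n.T k₀).io}
    (h₀ : (n.T k₀).y i₀ ≠ 0) (hD : IsDv μ ((n.T k₀).bd - pr ℂ ((n.T k₀).y i₀))) :
    Same ((rxD D).tgt (add n.tgt (mh_X k₀ i₀))) m.tgt := (sat_hyp_rx D h₀ hD).same (sat_pre m)

theorem finrank_Nm_hyp {e : n.J ≃ m.J} (D : RsD μ n m e) {k₀ : n.J} {i₀ : (n.T k₀).io}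
    (h₀ : (n.T k₀).y i₀ ≠ 0) (hD : IsDv μ ((n.T k₀).bd - pr ℂ ((n.T k₀).y i₀))) {E : Type}
    [Field E] [Algebra ℂ E] {η : Pnt m.io E} (hη : NZ η)
    (hT : ((rxD D).tgt (add n.tgt (mh_X k₀ i₀))).On η) :
    Module.finrank E (((rxD D).tgt (add n.tgt (mh_X k₀ i₀))).Nm η) = m.cod :=
  (sat_hyp_rx D h₀ hD).finrank_Nm (nz_py m) (gen_py m) (smCh_py m) hη hT

end Crest.Agent.X262.Syz
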