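import Crest.Agent.X262.Syz.Sat0
import Crest.Agent.X262.Syz.Fin

-- ▼ part X262/Syz/Prod0
section

/-!
# Row 262 (helper26): the ideal of a product

* `ker_map_le` : the kernel of a tensor product of linear maps;
* `mem_sup_of_prod` : `I (Y × S) = I Y + I S` for multihomogeneous ideals.
-/

set_option autoImplicit false
set_option linter.unusedSectionVars false

open MvPolynomial
open scoped TensorProduct

noncomputable section

namespace Crest.Agent.X262.Syz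

theorem ker_map_le {k V₁ V₂ W₁ W₂ : Type*} [Field k] [AddCommGroup V₁] [Module k V₁]
    [AddCommGroup V₂] [Module k V₂] [AddCommGroup W₁] [Module k W₁] [AddCommGroup W₂] [Module k W₂]
    (f₁ : V₁ →ₗ[k] W₁) (f₂ : V₂ →ₗ[k] W₂) (N : Submodule k (V₁ ⊗[k] V₂))
    (h₁ : ∀ a b, f₁ a = 0 → a ⊗ₜ b ∈ N) (h₂ : ∀ a b, f₂ b = 0 → a ⊗ₜ b ∈ N) :
    LinearMap.ker (TensorProduct.map f₁ f₂) ≤ N := by
  have e : TensorProduct.map f₁ f₂ =
      (TensorProduct.map (LinearMap.range f₁).subtype (LinearMap.range f₂).subtype).comp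
        (TensorProduct.map f₁.rangeRestrict f₂.rangeRestrict) := by
    rw [← TensorProduct.map_comp]
    rfl
  rw [e, LinearMap.ker_comp_of_ker_eq_bot _ (LinearMap.ker_eq_bot.2
      (TensorProduct.map_injective_of_flat_flat _ _ Subtype.val_injective Subtype.val_injective)),
    TensorProduct.map_ker f₁.rangeRestrict.exact_subtype_ker_map f₁.surjective_rangeRestrict
      f₂.rangeRestrict.exact_subtype_ker_map f₂.surjective_rangeRestrict]
  refine sup_le ?_ ?_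
  · rintro _ ⟨t, rfl⟩
    induction t using TensorProduct.induction_on with
    | zero => simp
    | tmul a b => exact h₂ a b (congrArg Subtype.val b.2)
    | add x y hx hy => rw [map_add]; exact add_mem hx hy
  · rintro _ ⟨t, rfl⟩
    induction t using TensorProduct.induction_on with
    | zero => simp
    | tmul a b => exact h₁ a b (congrArg Subtype.val a.2)
    | add x y hx hy => rw [map_add]; exact add_mem hx hy

variable {k : Type} [Field k] {ι ι₁ ι₂ J J₁ J₂ : Type} [Fintype ι] [Fintype ι₁] [Fintype ι₂]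
  [Fintype J] [DecidableEq J] [Fintype J₁] [DecidableEq J₁] [Fintype J₂] [DecidableEq J₂]

theorem hom_prod_X {b : ι → J} (s : ι → ℕ) :
    IsWeightedHomogeneous (mw b) (∏ i, X i ^ s i : MvPolynomial ι k) (∑ i, s i • mw b i) :=
  IsWeightedHomogeneous.prod (w := mw b) Finset.univ (fun i => (X i ^ s i : MvPolynomial ι k))
    (fun i => s i • mw b i) fun i _ => (isWeightedHomogeneous_X k _ i).pow _

/-- **the ideal of a product** -/
theorem mem_sup_of_prod {b : ι → J} {b₁ : ι₁ → J₁} {b₂ : ι₂ → J₂} (ε : ι₁ ⊕ ι₂ ≃ ι)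
    {e : J₁ ⊕ J₂ → J} (he : Function.Injective e) (h₁ : ∀ a, b (ε (.inl a)) = e (.inl (b₁ a)))
    (h₂ : ∀ a, b (ε (.inr a)) = e (.inr (b₂ a))) {K₁ K₂ L : Type} [Field K₁] [Algebra k K₁]
    [Field K₂] [Algebra k K₂] [Field L] [Algebra k L] {α₁ : K₁ →ₐ[k] L} {α₂ : K₂ →ₐ[k] L}
    (hα : Function.Injective (Algebra.TensorProduct.productMap α₁ α₂)) {y₁ : ι₁ → K₁}
    {y₂ : ι₂ → K₂} {y : ι → L} (hy₁ : ∀ a, y (ε (.inl a)) = α₁ (y₁ a))
    (hy₂ : ∀ a, y (ε (.inr a)) = α₂ (y₂ a)) {q : MvPolynomial ι k} {d : J → ℕ}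
    (hq : IsWeightedHomogeneous (mw b) q d) (h0 : aeval y q = 0) :
    q ∈ (hI k b₁ y₁).map (rename fun a => ε (.inl a) : _ →ₐ[k] _) ⊔
      (hI k b₂ y₂).map (rename fun a => ε (.inr a) : _ →ₐ[k] _) := by
  let V₁ := weightedHomogeneousSubmodule k (mw b₁) fun j => d (e (.inl j))
  let V₂ := weightedHomogeneousSubmodule k (mw b₂) fun j => d (e (.inr j))
  let r₁ : MvPolynomial ι₁ k →ₐ[k] MvPolynomial ι k := rename fun a => ε (.inl a)
  let r₂ : MvPolynomial ι₂ k →ₐ[k] MvPolynomial ι k := rename fun a => ε (.inr a)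
  let Φ : V₁ ⊗[k] V₂ →ₗ[k] MvPolynomial ι k :=
    (Algebra.TensorProduct.productMap r₁ r₂).toLinearMap.comp
      (TensorProduct.map V₁.subtype V₂.subtype)
  have hΦ : ∀ (g : V₁) (h : V₂), Φ (g ⊗ₜ h) = r₁ g * r₂ h := fun _ _ => rfl
  let f₁ : V₁ →ₗ[k] K₁ := (aeval y₁ : _ →ₐ[k] K₁).toLinearMap.comp V₁.subtype
  let f₂ : V₂ →ₗ[k] K₂ := (aeval y₂ : _ →ₐ[k] K₂).toLinearMap.comp V₂.subtype
  obtain ⟨t, rfl⟩ : q ∈ LinearMap.range Φ := by
    clear h0
    induction hq using IsWeightedHomogeneous.induction_on with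
    | zero => exact zero_mem _
    | add p q _ _ hp hq => exact add_mem hp hq
    | monomial s r hs =>
      have hd : ∀ j, d j = ∑ a, s (ε (.inl a)) * (if e (.inl (b₁ a)) = j then 1 else 0) +
          ∑ a, s (ε (.inr a)) * (if e (.inr (b₂ a)) = j then 1 else 0) := fun j => by
        rw [← hs, Finsupp.weight_apply, Finsupp.sum_fintype _ _ (by simp), Finset.sum_apply,
          ← ε.sum_comp, Fintype.sum_sum_type]
        simp only [Pi.smul_apply, smul_eq_mul, Pi.single_apply, h₁, h₂, eq_comm]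
      have m₁ : (∏ a, X a ^ s (ε (.inl a)) : MvPolynomial ι₁ k) ∈ V₁ := by
        have := hom_prod_X (k := k) (b := b₁) fun a => s (ε (.inl a))
        convert (mem_weightedHomogeneousSubmodule k _ _ _).2 this using 2
        funext j
        simp [hd, he.eq_iff, Pi.single_apply, eq_comm]
      have m₂ : (∏ a, X a ^ s (ε (.inr a)) : MvPolynomial ι₂ k) ∈ V₂ := by
        have := hom_prod_X (k := k) (b := b₂) fun a => s (ε (.inr a))
        convert (mem_weightedHomogeneousSubmodule k _ _ _).2 this using 2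
        funext j
        simp [hd, he.eq_iff, Pi.single_apply, eq_comm]
      refine ⟨r • (⟨_, m₁⟩ ⊗ₜ ⟨_, m₂⟩), ?_⟩
      rw [map_smul, hΦ, monomial_eq, Finsupp.prod_fintype _ _ (by simp), ← ε.prod_comp,
        Fintype.prod_sum_type, smul_eq_C_mul]
      simp only [r₁, r₂, map_prod, map_pow, rename_X]
  have key : ∀ t, aeval y (Φ t) =
      Algebra.TensorProduct.productMap α₁ α₂ (TensorProduct.map f₁ f₂ t) := fun t => by
    induction t using TensorProduct.induction_on with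
    | zero => simp
    | tmul g h =>
      rw [hΦ, map_mul, aeval_rename, aeval_rename, TensorProduct.map_tmul,
        Algebra.TensorProduct.productMap_apply_tmul]
      exact congrArg₂ (· * ·)
        ((congrArg (fun z => aeval z (g : MvPolynomial ι₁ k)) (funext hy₁)).trans
          (comp_aeval_apply _ α₁ _).symm)
        ((congrArg (fun z => aeval z (h : MvPolynomial ι₂ k)) (funext hy₂)).trans
          (comp_aeval_apply _ α₂ _).symm)
    | add x y hx hy => simp only [map_add, hx, hy]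
  have h3 : TensorProduct.map f₁ f₂ t = 0 := hα (by rw [← key, h0, map_zero])
  exact ker_map_le f₁ f₂ ((((hI k b₁ y₁).map r₁ ⊔ (hI k b₂ y₂).map r₂).restrictScalars k).comap Φ)
    (fun g h hg => Submodule.mem_sup_left (Ideal.mul_mem_right (r₂ h) _
      (Ideal.mem_map_of_mem r₁ (mem_hI g.2 hg))))
    (fun g h hh => Submodule.mem_sup_right (Ideal.mul_mem_left _ (r₁ g)
      (Ideal.mem_map_of_mem r₂ (mem_hI h.2 hh)))) h3

end Crest.Agent.X262.Syz
end
end

-- ▼ part X262/Syz/Prod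

/-!
# Row 262, road B (helper26): equations of a product

* `sat_prod` : the equations of the two factors cut out the product;
* `sat_prod_pre` : the same for an embedding of `Y.prod S`.
-/

set_option autoImplicit false
set_option linter.unusedSectionVars false

open MvPolynomial

noncomputable section

namespace Crest.Agent.X262.Syz

open Crest.Agent.X277 Crest.Agent.X277.BD Crest.Agent.R274.Prod1_134
open Crest.Agent.X262.Coh Crest.Agent.X262.Gwb Crest.Agent.X262.Vb Crest.Agent.X262.End66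

section Gen

variable {J J₁ J₂ : Type} [Fintype J] [DecidableEq J] [Fintype J₁] [DecidableEq J₁] [Fintype J₂]
  [DecidableEq J₂] {io : J → Type} [∀ j, Fintype (io j)] [∀ j, DecidableEq (io j)]
  {io₁ : J₁ → Type} [∀ j, Fintype (io₁ j)] [∀ j, DecidableEq (io₁ j)] {io₂ : J₂ → Type}
  [∀ j, Fintype (io₂ j)] [∀ j, DecidableEq (io₂ j)] {A A₁ A₂ : Type} [Fintype A] [Fintype A₁]
  [Fintype A₂]

/-- the variables of a subfamily of factors -/
abbrev subV (g : J₁ → J) (e : ∀ k, io₁ k ≃ io (g k)) : Vr io₁ → Vr io := fun v => ⟨g v.1, e v.1 v.2⟩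

/-- the projection to a subfamily of factors -/
abbrev subP (g : J₁ → J) (e : ∀ k, io₁ k ≃ io (g k)) {E : Type} (y : Pnt io E) : Pnt io₁ E :=
  fun k i => y (g k) (e k i)

theorem subV_inj {g : J₁ → J} (hg : Function.Injective g) (e : ∀ k, io₁ k ≃ io (g k)) :
    Function.Injective (subV g e) := by
  rintro ⟨k, i⟩ ⟨k', i'⟩ h
  obtain ⟨h1, h2⟩ := Sigma.mk.inj_iff.1 h
  obtain rfl : k = k' := hg h1
  exact congrArg (Sigma.mk k) ((e k).injective (eq_of_heq h2))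

theorem nz_subP (g : J₁ → J) (e : ∀ k, io₁ k ≃ io (g k)) {E : Type} [Field E] {y : Pnt io E}
    (hy : NZ y) : NZ (subP g e y) := fun k => by
  obtain ⟨i, hi⟩ := hy (g k)
  obtain ⟨i, rfl⟩ := (e k).surjective i
  exact ⟨i, hi⟩

theorem pv_subV (g : J₁ → J) (e : ∀ k, io₁ k ≃ io (g k)) {E : Type} [Field E] [Algebra ℂ E]
    (y : Pnt io E) (q : MvPolynomial (Vr io₁) ℂ) :
    pv y (rename (subV g e) q) = pv (subP g e y) q := aeval_rename _ _ _

theorem loc_map {K₁ : Type} [Field K₁] [Algebra ℂ K₁] {T₁ : Tgt io₁ A₁} {y₁ : Pnt io₁ K₁}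
    (h : Sat T₁ y₁) (g : J₁ → J) (e : ∀ k, io₁ k ≃ io (g k)) {I : Ideal (MvPolynomial (Vr io) ℂ)}
    (hI₁ : ∀ a, rename (subV g e) (T₁.F a) ∈ I) {E : Type} [Field E] [Algebra ℂ E] {η : Pnt io E}
    (hη : NZ η) {q : MvPolynomial (Vr io) ℂ}
    (hq : q ∈ (hI ℂ Sigma.fst (fl y₁)).map (rename (subV g e) : _ →ₐ[ℂ] _)) :
    ∃ s, pv η s ≠ 0 ∧ s * q ∈ I := by
  induction hq using Submodule.span_induction with
  | mem x hx =>
    obtain ⟨G, hG, rfl⟩ := hx
    obtain ⟨s, h0, h1⟩ := h.loc_hI (nz_subP g e hη) hG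
    refine ⟨rename (subV g e) s, by rwa [pv_subV], ?_⟩
    have := Ideal.mem_map_of_mem (rename (subV g e) : MvPolynomial (Vr io₁) ℂ →ₐ[ℂ] _) h1
    rw [map_mul, Ideal.map_span] at this
    refine (Ideal.span_le.2 ?_ : _ ≤ I) this
    rintro _ ⟨_, ⟨a, rfl⟩, rfl⟩
    exact hI₁ a
  | zero => exact ⟨1, by simp [pv], by simp⟩
  | add a b _ _ ha hb =>
    obtain ⟨s, h0, h1⟩ := ha
    obtain ⟨s', h0', h1'⟩ := hb
    refine ⟨s * s', by rw [pv, map_mul]; exact mul_ne_zero h0 h0', ?_⟩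
    have := add_mem (I.mul_mem_left s' h1) (I.mul_mem_left s h1')
    convert this using 1
    ring
  | smul a b _ hb =>
    obtain ⟨s, h0, h1⟩ := hb
    exact ⟨s, h0, by rw [smul_eq_mul, mul_left_comm]; exact I.mul_mem_left _ h1⟩

/-- **the equations of the factors cut out the product** -/
theorem sat_prod {g₁ : J₁ → J} (i₁ : Function.Injective g₁) (e₁ : ∀ k, io₁ k ≃ io (g₁ k))
    {g₂ : J₂ → J} (i₂ : Function.Injective g₂) (e₂ : ∀ k, io₂ k ≃ io (g₂ k))
    (dis : ∀ k k', g₁ k ≠ g₂ k') (cov : ∀ j, (∃ k, g₁ k = j) ∨ ∃ k, g₂ k = j)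
    {K₁ K₂ L : Type} [Field K₁] [Algebra ℂ K₁] [Field K₂] [Algebra ℂ K₂] [Field L] [Algebra ℂ L]
    {α₁ : K₁ →ₐ[ℂ] L} {α₂ : K₂ →ₐ[ℂ] L}
    (hα : Function.Injective (Algebra.TensorProduct.productMap α₁ α₂)) {y₁ : Pnt io₁ K₁}
    {y₂ : Pnt io₂ K₂} {y : Pnt io L} {c : J → L} (hc : ∀ j, c j ≠ 0)
    (hy₁ : ∀ k i, y (g₁ k) (e₁ k i) = c (g₁ k) * α₁ (y₁ k i))
    (hy₂ : ∀ k i, y (g₂ k) (e₂ k i) = c (g₂ k) * α₂ (y₂ k i)) {T₁ : Tgt io₁ A₁} (h₁ : Sat T₁ y₁)
    {T₂ : Tgt io₂ A₂} (h₂ : Sat T₂ y₂) {T : Tgt io A} (hT : T.On y)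
    (m₁ : ∀ a, rename (subV g₁ e₁) (T₁.F a) ∈ Ideal.span (Set.range T.F))
    (m₂ : ∀ a, rename (subV g₂ e₂) (T₂.F a) ∈ Ideal.span (Set.range T.F)) : Sat T y := by
  have hb : Function.Bijective (Sum.elim (subV g₁ e₁) (subV g₂ e₂)) := by
    refine ⟨Function.Injective.sumElim (subV_inj i₁ e₁) (subV_inj i₂ e₂) fun a b h =>
      dis _ _ (congrArg Sigma.fst h), ?_⟩
    rintro ⟨j, i⟩
    rcases cov j with ⟨k, rfl⟩ | ⟨k, rfl⟩
    · exact ⟨.inl ⟨k, (e₁ k).symm i⟩, by simp⟩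
    · exact ⟨.inr ⟨k, (e₂ k).symm i⟩, by simp⟩
  refine sat_of_loc hT fun q κ hq h0 η hη _ => ?_
  have h3 := mem_sup_of_prod (b := Sigma.fst) (b₁ := Sigma.fst) (b₂ := Sigma.fst)
    (Equiv.ofBijective _ hb) (e := Sum.elim g₁ g₂) (Function.Injective.sumElim i₁ i₂ dis)
    (fun _ => rfl) (fun _ => rfl) hα (y₁ := fl y₁) (y₂ := fl y₂)
    (y := fun v => (c v.1)⁻¹ * fl y v)
    (fun v => by
      change (c (g₁ v.1))⁻¹ * y (g₁ v.1) (e₁ v.1 v.2) = _
      rw [hy₁, inv_mul_cancel_left₀ (hc _)])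
    (fun v => by
      change (c (g₂ v.1))⁻¹ * y (g₂ v.1) (e₂ v.1 v.2) = _
      rw [hy₂, inv_mul_cancel_left₀ (hc _)]) hq
    (by rw [aeval_scale (fun j => (c j)⁻¹) (fl y) hq, show aeval (fl y) q = 0 from h0, mul_zero])
  obtain ⟨a, ha, b, hb, rfl⟩ := Submodule.mem_sup.1 h3
  obtain ⟨s, h4, h5⟩ := loc_map h₁ g₁ e₁ m₁ hη ha
  obtain ⟨s', h4', h5'⟩ := loc_map h₂ g₂ e₂ m₂ hη hb
  refine ⟨s * s', by rw [pv, map_mul]; exact mul_ne_zero h4 h4', ?_⟩
  have := add_mem (Ideal.mul_mem_left _ s' h5) (Ideal.mul_mem_left _ s h5')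
  convert this using 1
  ring


end Gen

variable {X Y S : SV}

/-- along a dominant morphism the restricted coordinates are the images, up to scalars -/
theorem rsD_hom {μ : Hom X Y} {n : Pre Y} {m : Pre X} {g : n.J → m.J} (D : RsD μ n m g)
    {α : Y.F →ₐ[ℂ] X.F} (hα : μ.p = AN.G1.Plc.ofHom α) (k : n.J) :
    ∃ c : X.F, c ≠ 0 ∧ ∀ i, m.y (g k) (D.e k i) = c * α (n.y k i) := by
  have h1 : ∀ i, m.y (g k) (D.e k i) = D.c k / α (D.u k) * α (n.y k i) := fun i => by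
    rw [D.eq, hα]
    change _ * α _ = _
    rw [map_div₀]
    ring
  refine ⟨_, fun h0 => ?_, h1⟩
  obtain ⟨i, hi⟩ := m.nz_y (g k)
  obtain ⟨i, rfl⟩ := (D.e k).surjective i
  exact hi (by rw [h1, h0, zero_mul])

/-- **the equations of an embedded product** -/
theorem sat_prod_pre {m : Pre Y} {n : Pre S} {p : Pre (Y.prod S)} {g₁ : m.J → p.J}
    (i₁ : Function.Injective g₁) (D₁ : RsD (fst Y S) m p g₁) {g₂ : n.J → p.J}
    (i₂ : Function.Injective g₂) (D₂ : RsD (snd Y S) n p g₂) (dis : ∀ k k', g₁ k ≠ g₂ k')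
    (cov : ∀ j, (∃ k, g₁ k = j) ∨ ∃ k, g₂ k = j) {A A₁ A₂ : Type} [Fintype A] [Fintype A₁]
    [Fintype A₂] {T₁ : Tgt m.io A₁} (h₁ : Sat T₁ (py m)) {T₂ : Tgt n.io A₂} (h₂ : Sat T₂ (py n))
    {T : Tgt p.io A} (hT : T.On (py p))
    (m₁ : ∀ a, rename (subV g₁ D₁.e) (T₁.F a) ∈ Ideal.span (Set.range T.F))
    (m₂ : ∀ a, rename (subV g₂ D₂.e) (T₂.F a) ∈ Ideal.span (Set.range T.F)) : Sat T (py p) := by
  classical
  choose c₁ h3 h4 using rsD_hom D₁ rfl
  choose c₂ h5 h6 using rsD_hom D₂ rfl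
  let c : p.J → (Y.prod S).F := Function.extend (Sum.elim g₁ g₂) (Sum.elim c₁ c₂) 1
  have hi := Function.Injective.sumElim i₁ i₂ dis
  have e₁ : ∀ k, c (g₁ k) = c₁ k := fun k => hi.extend_apply _ _ (.inl k)
  have e₂ : ∀ k, c (g₂ k) = c₂ k := fun k => hi.extend_apply _ _ (.inr k)
  refine sat_prod i₁ D₁.e i₂ D₂.e dis cov (isPF ℂ Y.F S.F).inj (c := c) (fun j => ?_)
    (fun k i => by rw [e₁]; exact h4 k i) (fun k i => by rw [e₂]; exact h6 k i) h₁ h₂ hT m₁ m₂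
  rcases cov j with ⟨k, rfl⟩ | ⟨k, rfl⟩
  · rw [e₁]; exact h3 k
  · rw [e₂]; exact h5 k

/-- the equations of the factors vanish on the product -/
theorem pv_subV_rsD {μ : Hom X Y} {n : Pre Y} {m : Pre X} {g : n.J → m.J} (D : RsD μ n m g)
    {A : Type} [Fintype A] {T : Tgt n.io A} (hT : T.On (py n)) (a : A) :
    pv (py m) (rename (subV g D.e) (T.F a)) = 0 :=
  (pv_subV _ _ _ _).trans ((rst_rsD D).on hT a)

end Crest.Agent.X262.Syz
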