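import Mathlib

/-!
# Row 262, GW-CORE (helper26): the matrix of syzygies

`F j` weighted homogeneous.  There is a finite weighted homogeneous matrix `ρ` with `ρ F = 0` whose
kernel at every smooth point `y` (over any field) is the image of the Jacobian matrix.
-/

set_option autoImplicit false
set_option linter.unusedSectionVars false

open MvPolynomial

noncomputable section

namespace Crest.Agent.X262.Syz

variable {k : Type*} [Field k] {ι κ : Type*} [Fintype ι] [Fintype κ] [DecidableEq κ]

/-- the Jacobian matrix of `F` at `y` -/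
def jac (F : κ → MvPolynomial ι k) {K : Type*} [CommRing K] [Algebra k K] (y : ι → K) :
    Matrix κ ι K := Matrix.of fun j i => aeval y (pderiv i (F j))

/-- near `y` the ideal `(F)` is generated by the `F i`, `i ∈ S`, whose differentials at `y` are
independent -/
def SmAt (F : κ → MvPolynomial ι k) {K : Type*} [Field K] [Algebra k K] (y : ι → K)
    (S : Finset κ) : Prop :=
  LinearIndependent K (fun i : S => jac F y i) ∧
    ∃ h : MvPolynomial ι k, aeval y h ≠ 0 ∧ ∀ j, h * F j ∈ Ideal.span (F '' (S : Set κ))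

/-- `ρ` sees all syzygies of `F` -/
structure IsSyz (F : κ → MvPolynomial ι k) {lam : Type*} [Fintype lam]
    (ρ : lam → κ → MvPolynomial ι k) : Prop where
  rel : ∀ l, ∑ j, ρ l j * F j = 0
  gen : ∀ a : κ → MvPolynomial ι k, ∑ j, a j * F j = 0 →
    ∃ c : lam → MvPolynomial ι k, ∀ j, a j = ∑ l, c l * ρ l j

section use
variable {F : κ → MvPolynomial ι k} {lam : Type*} [Fintype lam] {ρ : lam → κ → MvPolynomial ι k}

/-- the matrix `ρ` at a point -/
def evM (ρ : lam → κ → MvPolynomial ι k) {K : Type*} [CommRing K] [Algebra k K] (y : ι → K) :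
    Matrix lam κ K := Matrix.of fun l j => aeval y (ρ l j)


theorem syz_jac {a : κ → MvPolynomial ι k} (ha : ∑ j, a j * F j = 0) {K : Type*} [CommRing K]
    [Algebra k K] {y : ι → K} (hy : ∀ j, aeval y (F j) = 0) (i : ι) :
    ∑ j, aeval y (a j) * jac F y j i = 0 := by
  have := congrArg (fun p => aeval y (pderiv i p)) ha
  simpa [map_sum, Derivation.leibniz, hy, jac] using this

theorem IsSyz.mul_jac (h : IsSyz F ρ) {K : Type*} [CommRing K] [Algebra k K] {y : ι → K}
    (hy : ∀ j, aeval y (F j) = 0) : evM ρ y * jac F y = 0 := by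
  ext l i
  exact syz_jac (h.rel l) hy i

theorem IsSyz.syz_dot (h : IsSyz F ρ) {K : Type*} [CommRing K] [Algebra k K] {y : ι → K}
    {σ : κ → K} (hσ : (evM ρ y).mulVec σ = 0) {a : κ → MvPolynomial ι k}
    (ha : ∑ j, a j * F j = 0) : ∑ j, aeval y (a j) * σ j = 0 := by
  obtain ⟨c, hc⟩ := h.gen a ha
  have h1 : ∀ l, ∑ j, aeval y (ρ l j) * σ j = 0 := fun l => congrFun hσ l
  simp only [hc, map_sum, map_mul, Finset.sum_mul, mul_assoc]
  rw [Finset.sum_comm]
  exact Finset.sum_eq_zero fun l _ => by rw [← Finset.mul_sum, h1, mul_zero]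

/-- the syzygies given by local generation -/
theorem exists_loc {S : Finset κ} {h : MvPolynomial ι k}
    (hh : ∀ j, h * F j ∈ Ideal.span (F '' (S : Set κ))) (j : κ) :
    ∃ b : S → MvPolynomial ι k, h * F j = ∑ i : S, b i * F i := by
  have := hh j
  rw [Set.image_eq_range, Ideal.mem_span_range_iff_exists_fun] at this
  obtain ⟨c, hc⟩ := this
  exact ⟨c, hc.symm⟩

theorem loc_key {S : Finset κ} (h : MvPolynomial ι k) (j : κ) (b : S → MvPolynomial ι k)
    {R : Type*} [CommRing R] (φ : MvPolynomial ι k →+* R) (τ : κ → R) :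
    ∑ t, φ ((if t = j then h else 0) - ∑ i : S, if t = i then b i else 0) * τ t =
      φ h * τ j - ∑ i : S, φ (b i) * τ i := by
  simp only [map_sub, sub_mul, Finset.sum_sub_distrib, map_sum, Finset.sum_mul,
    apply_ite φ, map_zero, ite_mul, zero_mul]
  rw [Finset.sum_ite_eq' Finset.univ j, if_pos (Finset.mem_univ _), Finset.sum_comm]
  congr 1
  refine Finset.sum_congr rfl fun i _ => ?_
  rw [Finset.sum_ite_eq' Finset.univ (i : κ), if_pos (Finset.mem_univ _)]

theorem loc_rel {S : Finset κ} {h : MvPolynomial ι k} {j : κ} {b : S → MvPolynomial ι k}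
    (hb : h * F j = ∑ i : S, b i * F i) {K : Type*} [CommRing K] [Algebra k K] {y : ι → K}
    {σ : κ → K} (hσ : ∀ a : κ → MvPolynomial ι k, ∑ j, a j * F j = 0 →
      ∑ j, aeval y (a j) * σ j = 0) : aeval y h * σ j = ∑ i : S, aeval y (b i) * σ i := by
  have h1 := loc_key h j b (RingHom.id _) F
  simp only [RingHom.id_apply] at h1
  have h2 := hσ _ (by rw [h1, hb, sub_self])
  have h3 := loc_key h j b (aeval y : MvPolynomial ι k →ₐ[k] K).toRingHom σ
  exact sub_eq_zero.1 (h3.symm.trans h2)

/-- **kernel of the syzygy matrix = image of the Jacobian** -/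
theorem IsSyz.ker_iff (h : IsSyz F ρ) {K : Type*} [Field K] [Algebra k K] {y : ι → K}
    (hy : ∀ j, aeval y (F j) = 0) {S : Finset κ} (hS : SmAt F y S) (σ : κ → K) :
    (evM ρ y).mulVec σ = 0 ↔ ∃ v : ι → K, (jac F y).mulVec v = σ := by
  constructor
  · intro hσ
    obtain ⟨hli, g, hg0, hg⟩ := hS
    have hsurj : Function.Surjective (Matrix.of fun i : S => jac F y i).mulVec := by
      have h1 : (Matrix.of fun i : S => jac F y i).rank = Fintype.card S :=
        LinearIndependent.rank_matrix hli
      have h2 : LinearMap.range (Matrix.of fun i : S => jac F y i).mulVecLin = ⊤ :=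
        Submodule.eq_top_of_finrank_eq (by rw [Module.finrank_fintype_fun_eq_card]; exact h1)
      exact LinearMap.range_eq_top.1 h2
    obtain ⟨v, hv⟩ := hsurj fun i => σ i
    refine ⟨v, funext fun j => mul_left_cancel₀ hg0 ?_⟩
    obtain ⟨b, hb⟩ := exists_loc hg j
    rw [loc_rel hb (σ := σ) fun a ha => h.syz_dot hσ ha,
      loc_rel hb (σ := (jac F y).mulVec v) fun a ha => ?_]
    · exact Finset.sum_congr rfl fun i _ => by rw [← congrFun hv i]; rfl
    · simp only [Matrix.mulVec, dotProduct, Finset.mul_sum, ← mul_assoc]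
      rw [Finset.sum_comm]
      exact Finset.sum_eq_zero fun i _ => by rw [← Finset.sum_mul, syz_jac ha hy, zero_mul]
  · rintro ⟨v, rfl⟩
    rw [Matrix.mulVec_mulVec, h.mul_jac hy, Matrix.zero_mulVec]

/-- the rank of the Jacobian at a smooth point -/
theorem SmAt.rank_jac {K : Type*} [Field K] [Algebra k K] {y : ι → K}
    (hy : ∀ j, aeval y (F j) = 0) {S : Finset κ} (hS : SmAt F y S) : (jac F y).rank = S.card := by
  obtain ⟨hli, g, hg0, hg⟩ := hS
  rw [Matrix.rank_eq_finrank_span_row, ← Fintype.card_coe, ← finrank_span_eq_card hli]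
  suffices e : Submodule.span K (Set.range (jac F y).row) =
      Submodule.span K (Set.range fun i : S => jac F y i) by rw [e]
  refine le_antisymm (Submodule.span_le.2 ?_) (Submodule.span_mono ?_)
  · rintro _ ⟨j, rfl⟩
    obtain ⟨b, hb⟩ := exists_loc hg j
    have e : (jac F y).row j = ∑ i : S, ((aeval y g)⁻¹ * aeval y (b i)) • jac F y i := by
      ext t
      have := loc_rel hb (σ := fun j => jac F y j t) fun a ha => syz_jac ha hy t
      simp only [Finset.sum_apply, Pi.smul_apply, smul_eq_mul, mul_assoc]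
      rw [← Finset.mul_sum, ← this, inv_mul_cancel_left₀ hg0]; rfl
    rw [e]
    exact Submodule.sum_mem _ fun i _ =>
      Submodule.smul_mem _ _ (Submodule.subset_span ⟨i, rfl⟩)
  · rintro _ ⟨i, rfl⟩
    exact ⟨i, rfl⟩

end use

/-! ### existence with weights -/

section ex
variable {M : Type*} [AddCommGroup M] [DecidableEq M] (w : ι → M)

theorem comp_mul {a f : MvPolynomial ι k} {m : M} (hf : IsWeightedHomogeneous w f m) (e : M) :
    weightedHomogeneousComponent w e (a * f) = weightedHomogeneousComponent w (e - m) a * f := by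
  classical
  let _ := weightedGradedAlgebra k w
  have := DirectSum.coe_decompose_mul_add_of_right_mem (weightedHomogeneousSubmodule k w)
    (a := a) (b := f) (i := e - m) (j := m) hf
  rw [sub_add_cancel] at this
  rw [← weightedDecomposition.decompose'_apply, ← weightedDecomposition.decompose'_apply]
  exact this

/-- **a weighted homogeneous syzygy matrix** -/
theorem exists_isSyz (F : κ → MvPolynomial ι k) (m : κ → M)
    (hF : ∀ j, IsWeightedHomogeneous w (F j) (m j)) :
    ∃ (r : ℕ) (ρ : Fin r → κ → MvPolynomial ι k) (e : Fin r → M), IsSyz F ρ ∧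
      ∀ l j, IsWeightedHomogeneous w (ρ l j) (e l - m j) := by
  classical
  let R := MvPolynomial ι k
  let Z : Submodule R (κ → R) := LinearMap.ker (Fintype.linearCombination R F)
  have hZ : ∀ a, a ∈ Z ↔ ∑ j, a j * F j = 0 := fun a => by
    simp [Z, Fintype.linearCombination_apply]
  let H : Set (κ → R) := {a | a ∈ Z ∧ ∃ e, ∀ j, IsWeightedHomogeneous w (a j) (e - m j)}
  have hH : Submodule.span R H = Z := by
    refine le_antisymm (Submodule.span_le.2 fun a ha => ha.1) fun a ha => ?_
    let T : Finset M := Finset.univ.biUnion fun j =>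
      (a j).support.image fun d => Finsupp.weight w d + m j
    have e : a = ∑ e ∈ T, fun j => weightedHomogeneousComponent w (e - m j) (a j) := by
      funext j
      ext d
      simp only [Finset.sum_apply, coeff_sum, coeff_weightedHomogeneousComponent]
      by_cases hd : coeff d (a j) = 0
      · simp [hd]
      · rw [Finset.sum_eq_single (Finsupp.weight w d + m j)]
        · simp
        · intro b _ hb
          rw [if_neg fun h => hb (by rw [h, sub_add_cancel])]
        · intro hn
          exact absurd (Finset.mem_biUnion.2 ⟨j, Finset.mem_univ _,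
            Finset.mem_image.2 ⟨d, mem_support_iff.2 hd, rfl⟩⟩) hn
    rw [e]
    refine Submodule.sum_mem _ fun e _ => Submodule.subset_span
      ⟨(hZ _).2 ?_, e, fun j => weightedHomogeneousComponent_isWeightedHomogeneous _ _⟩
    have := congrArg (weightedHomogeneousComponent w e) ((hZ a).1 ha)
    rw [map_sum, map_zero] at this
    simpa only [comp_mul w (hF _)] using this
  obtain ⟨s, hsH, hs⟩ :=
    (Submodule.fg_span_iff_fg_span_finset_subset H).1 (hH ▸ IsNoetherian.noetherian Z)
  have hm : ∀ l : Fin s.card, (s.equivFin.symm l : κ → R) ∈ H := fun l => hsH (s.equivFin.symm l).2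
  choose e he using fun l => (hm l).2
  refine ⟨s.card, fun l => (s.equivFin.symm l : κ → R), e, ⟨fun l => (hZ _).1 (hm l).1, ?_⟩, he⟩
  intro a ha
  have h1 : a ∈ Submodule.span R (Set.range fun l : Fin s.card => (s.equivFin.symm l : κ → R)) := by
    have : (Set.range fun l : Fin s.card => (s.equivFin.symm l : κ → R)) = s := by
      ext x
      constructor
      · rintro ⟨l, rfl⟩; exact (s.equivFin.symm l).2
      · intro hx; exact ⟨s.equivFin ⟨x, hx⟩, by simp⟩
    rw [this, ← hs, hH]
    exact (hZ a).2 ha
  obtain ⟨c, hc⟩ := (Submodule.mem_span_range_iff_exists_fun R).1 h1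
  exact ⟨c, fun j => by rw [← hc]; simp⟩

end ex

end Crest.Agent.X262.Syz
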